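import Vale.Agent.P287D.Cb.Lg

/-!
# P287D, block CAN: coordinates at a divisorial place
-/

open Set Polynomial
open Vale.Agent.P285N.Brep (jac Fr)
open Vale.Agent.P297Z

noncomputable section

namespace Vale.Agent.P287D.Cb

variable {K : Type} [Field K] [Algebra ℂ K] {P : Pl K} {d : K → K} {n : ℕ}

theorem adj_mem {S : Set K} (hS : S ⊆ P.ring) {a : K} (ha : a ∈ Algebra.adjoin ℂ S) :
    a ∈ P.ring := by
  induction ha using Algebra.adjoin_induction with
  | mem a ha => exact hS ha
  | algebraMap a => exact P.con a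
  | add a b _ _ ha hb => exact add_mem ha hb
  | mul a b _ _ ha hb => exact mul_mem ha hb

theorem adj_der (h : De d) {S : Set K} (hS : S ⊆ P.ring) (h1 : ∀ s ∈ S, d s ∈ P.ring)
    (h2 : ∀ c, d (algebraMap ℂ K c) ∈ P.ring) {a : K} (ha : a ∈ Algebra.adjoin ℂ S) :
    d a ∈ P.ring := by
  induction ha using Algebra.adjoin_induction with
  | mem a ha => exact h1 a ha
  | algebraMap a => exact h2 a
  | add a b _ _ ha hb => exact h.add a b ▸ add_mem ha hb
  | mul a b ka kb ha hb =>
    exact h.mul a b ▸ add_mem (mul_mem (adj_mem hS ka) hb) (mul_mem (adj_mem hS kb) ha)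

/-- the residue map as an algebra homomorphism on a subalgebra -/
def rdA (A : Subalgebra ℂ K) (h : ∀ a ∈ A, a ∈ P.ring) : A →ₐ[ℂ] P.κ where
  toFun a := P.rd a
  map_one' := by simpa using rd_const (P := P) 1
  map_zero' := by simpa using rd_const (P := P) 0
  map_mul' a b := rd_mul (h a a.2) (h b b.2)
  map_add' a b := rd_add (h a a.2) (h b b.2)
  commutes' c := rd_const c

theorem rd_aeval {ι : Type} {u : ι → K} (hu : ∀ i, u i ∈ P.ring) (p : MvPolynomial ι ℂ) :
    P.rd (MvPolynomial.aeval u p) = MvPolynomial.aeval (fun i => P.rd (u i)) p := by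
  have m : ∀ p : MvPolynomial ι ℂ, MvPolynomial.aeval u p ∈ P.ring := fun p =>
    adj_mem (S := range u) (by rintro _ ⟨i, rfl⟩; exact hu i)
      (by rw [Algebra.adjoin_range_eq_range_aeval]; exact ⟨p, rfl⟩)
  induction p using MvPolynomial.induction_on with
  | C a => simpa using rd_const a
  | add p q hp hq => rw [map_add, map_add, rd_add (m p) (m q), hp, hq]
  | mul_X p i hp => rw [map_mul, map_mul, rd_mul (m p) (m _), hp]; simp

section

variable {ι : Type} {u : ι → K} (hu : ∀ i, u i ∈ P.ring)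
  (hi : AlgebraicIndependent ℂ fun i => P.rd (u i))

include hu hi

theorem unit0 {a : K} (ha : a ∈ Algebra.adjoin ℂ (range u)) (h : Mx P a) : a = 0 := by
  rw [Algebra.adjoin_range_eq_range_aeval] at ha
  obtain ⟨p, rfl⟩ := ha
  have := (rd_eq_zero h.mem).2 h
  change P.rd (MvPolynomial.aeval u p) = 0 at this
  rw [rd_aeval hu] at this
  change MvPolynomial.aeval u p = 0
  rw [algebraicIndependent_iff.1 hi p this, map_zero]

theorem ind_of_rd : AlgebraicIndependent ℂ u := algebraicIndependent_iff.2 fun p hp =>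
  algebraicIndependent_iff.1 hi p (by
    rw [← rd_aeval hu, hp]
    exact (rd_eq_zero (zero_mem _)).2 mx_zero)

theorem trans_of_mx {π : K} (h0 : π ≠ 0) (hπ : Mx P π) :
    Transcendental (Algebra.adjoin ℂ (range u)) π := by
  have hS : range u ⊆ P.ring := by rintro _ ⟨i, rfl⟩; exact hu i
  have k : ∀ m (p : (Algebra.adjoin ℂ (range u))[X]), p.natDegree = m → aeval π p = 0 → p = 0 := by
    intro m
    induction m using Nat.strong_induction_on with
    | _ m ih =>
    intro p hm hp
    have e := congrArg (aeval π) (divX_mul_X_add p)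
    rw [hp, map_add, map_mul, aeval_X, aeval_C] at e
    have m1 : aeval π p.divX ∈ P.ring := by
      rw [aeval_eq_sum_range]
      exact sum_mem fun i _ => mul_mem (adj_mem hS (p.divX.coeff i).2) (pow_mem hπ.mem _)
    have c0 : p.coeff 0 = 0 := Subtype.ext (unit0 hu hi (p.coeff 0).2 (by
      have := mx_zero.sub (hπ.mul m1)
      rwa [← e, add_sub_cancel_left] at this))
    rw [c0, map_zero, add_zero] at e
    by_cases m0 : m = 0
    · rw [eq_C_of_natDegree_eq_zero (hm.trans m0), c0, map_zero]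
    · have := ih _ (by rw [natDegree_divX_eq_natDegree_tsub_one]; omega) p.divX rfl
        ((mul_eq_zero.1 e).resolve_right h0)
      rw [← divX_mul_X_add p, this, c0]
      simp
  exact fun ⟨p, p0, hp⟩ => p0 (k _ p rfl hp)

end

theorem ind_cons {u : Fin n → K} (hu : ∀ i, u i ∈ P.ring)
    (hi : AlgebraicIndependent ℂ fun i => P.rd (u i)) {π : K} (h0 : π ≠ 0) (hπ : Mx P π) :
    AlgebraicIndependent ℂ (Fin.cons π u : Fin (n + 1) → K) := by
  have := AlgebraicIndependent.option_iff.2 ⟨ind_of_rd hu hi, trans_of_mx hu hi h0 hπ⟩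
  refine (algebraicIndependent_equiv' (finSuccEquiv n) ?_).2 this
  funext i
  refine Fin.cases ?_ (fun i => ?_) i <;> simp

omit [Algebra ℂ K] in
theorem horner (p : K[X]) {x : K} (h0 : p.eval x = 0) (V : ValuationSubring K)
    (hp : ∀ i, p.coeff i ∈ V) (k : ℕ) :
    (divX^[k] p).eval x ∈ V ∧ x * (divX^[k] p).eval x ∈ V := by
  have c : ∀ k i, (divX^[k] p).coeff i = p.coeff (i + k) := fun k => by
    induction k with
    | zero => simp
    | succ k ih => intro i; rw [Function.iterate_succ_apply', coeff_divX, ih]; congr 1; omega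
  rcases V.mem_or_inv_mem x with hx | hx
  · have : (divX^[k] p).eval x ∈ V := by
      rw [eval_eq_sum_range]
      exact sum_mem fun i _ => mul_mem (c k i ▸ hp _) (pow_mem hx _)
    exact ⟨this, mul_mem hx this⟩
  · by_cases x0 : x = 0
    · rw [x0, zero_mul, ← coeff_zero_eq_eval_zero, c]
      exact ⟨hp _, zero_mem _⟩
    induction k with
    | zero => simp [h0, zero_mem]
    | succ k ih =>
      have e := congrArg (eval x) (divX_mul_X_add (divX^[k] p))
      rw [eval_add, eval_mul, eval_X, eval_C, c, ← Function.iterate_succ_apply' divX] at e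
      have a : x * (divX^[k + 1] p).eval x ∈ V := by
        have := sub_mem ih.1 (hp (0 + k))
        rwa [← e, add_sub_cancel_right, mul_comm] at this
      have := mul_mem hx a
      rw [inv_mul_cancel_left₀ x0] at this
      exact ⟨this, a⟩

theorem exists_pow (P : Pl K) {ι : Type} [Finite ι] (z : ι → K) :
    ∃ c : ℕ, ∀ i, P.t ^ c * z i ∈ P.ring := by
  obtain ⟨c, hc⟩ := (finite_range fun i => (-P.ord (z i)).toNat).bddAbove
  refine ⟨c, fun i => ?_⟩
  by_cases h : z i = 0
  · simp [h, zero_mem]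
  · have : (-P.ord (z i)).toNat ≤ c := hc ⟨i, rfl⟩
    refine mem_ord ?_
    rw [Pl.ord_mul _ (pow_ne_zero _ P.t_ne) h, Pl.ord_pow, P.ord_t]
    omega

/-- a derivation which is bounded on the valuation ring of a subfield is bounded -/
theorem bdd_of (h : De d) (F : IntermediateField ℂ K) [FiniteDimensional F K]
    (hF : ∀ x ∈ F, x ∈ P.ring → d x ∈ P.ring) : ∃ c : ℕ, Rg P fun x => P.t ^ c * d x := by
  classical
  have : CharZero F := charZero_of_injective_algebraMap (algebraMap ℂ F).injective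
  let R : ValuationSubring F := P.ring.comap (algebraMap F K)
  obtain ⟨s, b, hb⟩ := FiniteDimensional.exists_is_basis_integral R F K
  have le := integralClosure_le_span_dualBasis b hb
  generalize (Algebra.traceForm F K).dualBasis (traceForm_nondegenerate F K) b = β at le
  obtain ⟨c, hc⟩ := exists_pow P (Sum.elim β fun i => d (β i))
  have B : ∀ z ∈ integralClosure R K, P.t ^ c * d z ∈ P.ring := fun z hz => by
    obtain ⟨r, rfl⟩ := (Submodule.mem_span_range_iff_exists_fun _).1 (le hz)
    have : ∀ T : Finset s, P.t ^ c * d (∑ i ∈ T, r i • β i) ∈ P.ring := fun T => by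
      induction T using Finset.induction_on with
      | empty => simp [h.zero, zero_mem]
      | insert i T hi ih =>
        have e : r i • β i = ((r i : F) : K) * β i := rfl
        have m : ((r i : F) : K) ∈ P.ring := (r i).2
        rw [Finset.sum_insert hi, h.add, e, h.mul, mul_add, mul_add, RingHom.id_apply,
          RingHom.id_apply, mul_left_comm, ← mul_assoc _ (β i)]
        exact add_mem (add_mem (mul_mem m (hc (.inr i)))
          (mul_mem (hc (.inl i)) (hF _ (r i : F).2 m))) ih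
    exact this _
  refine ⟨c, fun x hx => ?_⟩
  obtain ⟨q, q0, hq⟩ := Algebra.IsAlgebraic.isAlgebraic (R := F) x
  obtain ⟨i0, hi0, hm⟩ := q.support.exists_min_image (fun i => P.ord (q.coeff i : K))
    (support_nonempty.2 q0)
  have c0 : q.coeff i0 ≠ 0 := mem_support_iff.1 hi0
  let p : K[X] := (C (q.coeff i0)⁻¹ * q).map (algebraMap F K)
  have pc : ∀ i, ∃ r : R, p.coeff i = algebraMap R K r := fun i => by
    refine ⟨⟨(q.coeff i0)⁻¹ * q.coeff i, ?_⟩, by rw [coeff_map, coeff_C_mul]; rfl⟩
    change (((q.coeff i0)⁻¹ * q.coeff i : F) : K) ∈ P.ring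
    by_cases ci : q.coeff i = 0
    · simp [ci, zero_mem]
    · have := hm i (mem_support_iff.2 ci)
      refine mem_ord ?_
      push_cast
      rw [Pl.ord_mul _ (by simpa using c0) (by simpa using ci), Pl.ord_inv]
      omega
  have p0 : p.eval x = 0 := by
    rw [eval_map, ← aeval_def, map_mul, hq, mul_zero]
  have I : ∀ k, (divX^[k] p).eval x ∈ integralClosure R K ∧
      x * (divX^[k] p).eval x ∈ integralClosure R K := fun k => by
    constructor <;>
    · by_contra hn
      obtain ⟨V, h1, h2⟩ := Subring.exists_le_valuationSubring_of_isIntegrallyClosedIn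
        (R := (integralClosure R K).toSubring) hn
      have := horner p p0 V (fun i => (pc i).elim fun r e =>
        e ▸ h1 ((integralClosure R K).algebraMap_mem r)) k
      first | exact h2 this.1 | exact h2 this.2
  have pm : ∀ i, p.coeff i ∈ P.ring := fun i => (pc i).elim fun r e => e ▸ r.2
  have c1 : ∀ k i, (divX^[k] p).coeff i = p.coeff (i + k) := fun k => by
    induction k with
    | zero => simp
    | succ k ih => intro i; rw [Function.iterate_succ_apply', coeff_divX, ih]; congr 1; omega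
  obtain ⟨k, hk⟩ : ∃ k, ¬ Mx P ((divX^[k] p).eval x) := by
    by_contra hn
    push Not at hn
    have e := congrArg (eval x) (divX_mul_X_add (divX^[i0] p))
    rw [eval_add, eval_mul, eval_X, eval_C, c1, ← Function.iterate_succ_apply' divX, zero_add,
      coeff_map, coeff_C_mul, inv_mul_cancel₀ c0, map_one] at e
    have := (hn i0).sub ((hn (i0 + 1)).mul hx)
    rw [← e, mul_comm x, add_sub_cancel_left] at this
    exact not_mx_one this
  have b0 : (divX^[k] p).eval x ≠ 0 := fun e => hk (e ▸ mx_zero)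
  have := mul_mem (inv_mem_of hk) (sub_mem (B _ (I k).2) (mul_mem hx (B _ (I k).1)))
  rwa [h.mul, RingHom.id_apply, RingHom.id_apply, mul_add, mul_left_comm, add_sub_cancel_left,
    mul_left_comm (P.t ^ c), inv_mul_cancel_left₀ b0] at this

/-- `π, u` are adapted to `P` -/
structure Ada (P : Pl K) (π : K) (u : Fin n → K) : Prop where
  ord : P.ord π = 1
  mem : ∀ i, u i ∈ P.ring
  ind : AlgebraicIndependent ℂ fun i => P.rd (u i)

namespace Ada

variable {π : K} {u : Fin n → K} (a : Ada P π u)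

include a

theorem ne : π ≠ 0 := fun e => by simpa [e] using a.ord

theorem mx : Mx P π := mx_iff.2 (Or.inr (by rw [a.ord]; omega))

theorem cons_mem (i : Fin (n + 1)) : (Fin.cons π u : Fin (n + 1) → K) i ∈ P.ring :=
  Fin.cases a.mx.mem a.mem i

theorem indep : AlgebraicIndependent ℂ (Fin.cons π u : Fin (n + 1) → K) :=
  ind_cons a.mem a.ind a.ne a.mx

theorem ord_u (i : Fin n) : u i ≠ 0 ∧ P.ord (u i) = 0 := by
  have : ¬ Mx P (u i) := by
    rw [← rd_eq_zero (a.mem i)]
    exact a.ind.ne_zero i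
  rw [mx_iff, not_or] at this
  have k := Pl.ord_nonneg_of_mem _ (a.mem i)
  exact ⟨this.1, by omega⟩

theorem ld (h : De d) (h0 : d π ∈ P.ring) (h1 : ∀ i, d (u i) ∈ P.ring)
    (h2 : ∀ c, d (algebraMap ℂ K c) ∈ P.ring) {x : K}
    (hx : x ∈ IntermediateField.adjoin ℂ (range (Fin.cons π u : Fin (n + 1) → K))) :
    π * (d x / x) ∈ P.ring := by
  have hS : range (Fin.cons π u : Fin (n + 1) → K) ⊆ P.ring := by
    rintro _ ⟨i, rfl⟩
    exact a.cons_mem i
  generalize hA : Algebra.adjoin ℂ (range (Fin.cons π u : Fin (n + 1) → K)) = A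
  have pA : π ∈ A := hA ▸ Algebra.subset_adjoin ⟨0, rfl⟩
  have le : Algebra.adjoin ℂ (range u) ≤ A :=
    hA ▸ Algebra.adjoin_mono (by rintro _ ⟨i, rfl⟩; exact ⟨i.succ, rfl⟩)
  have mA : ∀ z ∈ A, z ∈ P.ring := fun z hz => adj_mem hS (hA ▸ hz)
  have dA : ∀ z ∈ A, d z ∈ P.ring := fun z hz => adj_der h hS (by
    rintro _ ⟨i, rfl⟩
    exact Fin.cases h0 h1 i) h2 (hA ▸ hz)
  have dec : ∀ z ∈ A, ∃ z0 ∈ Algebra.adjoin ℂ (range u), ∃ z1 ∈ A, z = z0 + π * z1 := by
    intro z hz
    rw [← hA] at hz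
    induction hz using Algebra.adjoin_induction with
    | mem z hz =>
      obtain ⟨i, rfl⟩ := hz
      refine Fin.cases ⟨0, zero_mem _, 1, one_mem _, by simp⟩ (fun i => ?_) i
      exact ⟨u i, Algebra.subset_adjoin ⟨i, rfl⟩, 0, zero_mem _, by simp⟩
    | algebraMap c => exact ⟨_, Subalgebra.algebraMap_mem _ c, 0, zero_mem _, by simp⟩
    | add x y _ _ hx hy =>
      obtain ⟨x0, k1, x1, k2, rfl⟩ := hx
      obtain ⟨y0, k3, y1, k4, rfl⟩ := hy
      exact ⟨_, add_mem k1 k3, _, add_mem k2 k4, by ring⟩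
    | mul x y _ _ hx hy =>
      obtain ⟨x0, k1, x1, k2, rfl⟩ := hx
      obtain ⟨y0, k3, y1, k4, rfl⟩ := hy
      exact ⟨_, mul_mem k1 k3, x0 * y1 + x1 * y0 + π * x1 * y1, add_mem (add_mem
        (mul_mem (le k1) k4) (mul_mem k2 (le k3))) (mul_mem (mul_mem pA k2) k4), by ring⟩
  have k : ∀ m : ℕ, ∀ z ∈ A, P.ord z = m → π * (d z / z) ∈ P.ring := by
    intro m
    induction m with
    | zero =>
      intro z hz o
      rw [div_eq_mul_inv]
      exact mul_mem a.mx.mem (mul_mem (dA z hz) (inv_mem_ord o))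
    | succ m ih =>
      intro z hz o
      obtain ⟨z0, k1, z1, k2, e⟩ := dec z hz
      have : z0 = 0 := unit0 a.mem a.ind k1 (by
        have := (mx_iff.2 (Or.inr (by omega)) : Mx P z).sub (a.mx.mul (mA _ k2))
        rwa [e, mul_comm z1, add_sub_cancel_right] at this)
      rw [this, zero_add] at e
      have z1ne : z1 ≠ 0 := fun h => by
        rw [e, h, mul_zero, Pl.ord_zero] at o
        omega
      have q := h.ld_mul a.ne z1ne
      simp only [RingHom.id_apply] at q
      rw [e, Pl.ord_mul _ a.ne z1ne, a.ord] at o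
      rw [e, q, mul_add, mul_div_cancel₀ _ a.ne]
      exact add_mem h0 (ih z1 k2 (by omega))
  have k' : ∀ z ∈ A, π * (d z / z) ∈ P.ring := fun z hz =>
    k _ z hz (Int.toNat_of_nonneg (Pl.ord_nonneg_of_mem _ (mA z hz))).symm
  obtain ⟨r, hr, s, hs, rfl⟩ := IntermediateField.mem_adjoin_iff_div.1 hx
  rw [hA] at hr hs
  by_cases e : r / s = 0
  · simp [e, zero_mem]
  have q := h.ld_mul (div_ne_zero_iff.1 e).1 (inv_ne_zero (div_ne_zero_iff.1 e).2)
  rw [h.ld_inv] at q
  simp only [RingHom.id_apply] at q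
  rw [div_eq_mul_inv r, q, mul_add, mul_neg]
  exact add_mem (k' r hr) (neg_mem (k' s hs))

theorem sp (hK : FF K (n + 1)) : Sp P (range u) := by
  refine ⟨by rintro _ ⟨i, rfl⟩; exact a.mem i, fun z => ?_⟩
  have t : Algebra.trdeg ℂ P.κ + 1 = Algebra.trdeg ℂ K := P.dvl
  rw [hK.trdeg, Nat.cast_add, Nat.cast_one, Cardinal.add_one_inj] at t
  rw [← range_comp]
  exact (a.ind.isTranscendenceBasis_of_trdeg_le_of_finite (by simp [t])).isAlgebraic.isAlgebraic z

/-- a derivation which is regular on adapted coordinates and on the constants is regular -/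
theorem rg (hK : FF K (n + 1)) (h : De d) (h0 : d π ∈ P.ring) (h1 : ∀ i, d (u i) ∈ P.ring)
    (h2 : ∀ c, d (algebraMap ℂ K c) ∈ P.ring) : Rg P d := by
  have := hK.fin a.indep
  obtain ⟨c, hc⟩ := bdd_of (P := P) (h.smul π) _ fun x hx hx' => by
    by_cases x0 : x = 0
    · simp [x0, h.zero, zero_mem]
    have := mul_mem (a.ld h h0 h1 h2 hx) hx'
    rwa [mul_assoc, div_mul_cancel₀ _ x0] at this
  have v : P.ord (P.t / π) = 0 := by rw [Pl.ord_div _ P.t_ne a.ne, P.ord_t, a.ord, sub_self]
  have r : Rg P fun x => P.t ^ (c + 1) * d x := fun x hx => by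
    have := mul_mem (mem_ord v.ge) (hc x hx)
    rwa [mul_left_comm, ← mul_assoc (P.t / π), div_mul_cancel₀ _ a.ne, ← mul_assoc,
      ← pow_succ] at this
  have l : Lg P fun x => π * d x := lg_of (h.smul π) (a.sp hK)
    (by rintro _ ⟨i, rfl⟩; exact mul_mem a.mx.mem (h1 i)) (fun c => mul_mem a.mx.mem (h2 c))
    (y := π) (by rw [a.ord]; omega) (by rwa [mul_div_cancel_left₀ _ a.ne]) (c + 2) fun x => by
      have := mul_mem a.mx.mem (r.lg_t (h.smul _) x)
      beta_reduce at this ⊢
      rwa [← mul_div_assoc, ← mul_assoc P.t, ← pow_succ', mul_left_comm] at this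
  intro x hx
  have := mul_mem (mem_ord v.ge) (l.small (h.smul π) (a.sp hK)
    (by rintro _ ⟨i, rfl⟩; exact mul_comm π _ ▸ a.mx.mul (h1 i))
    (fun c => mul_comm π _ ▸ a.mx.mul (h2 c)) hx)
  have e : P.t / π * (π * d x / P.t) = d x := by
    have := a.ne
    have := P.t_ne
    field_simp
  rwa [e] at this

theorem lg (hK : FF K (n + 1)) (h : De d) (h0 : d π / π ∈ P.ring) (h1 : ∀ i, d (u i) ∈ P.ring)
    (h2 : ∀ c, d (algebraMap ℂ K c) ∈ P.ring) : Lg P d :=
  (a.rg hK h (by
    have := mul_mem h0 a.mx.mem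
    rwa [div_mul_cancel₀ _ a.ne] at this) h1 h2).lg h (by rw [a.ord]; omega) h0

/-- **K1** -/
theorem ad (hK : FF K (n + 1)) : ∃ D, Ad P (Fin.cons π u) D := by
  obtain ⟨D, hD⟩ := fr_of hK a.indep
  have m : ∀ i j, D i ((Fin.cons π u : Fin (n + 1) → K) j) ∈ P.ring := fun i j => by
    rw [hD.dual]
    split_ifs
    exacts [one_mem _, zero_mem _]
  exact ⟨D, hD, a.cons_mem, fun j => a.rg hK (dr_of (D j)) (m j 0) (fun i => m j i.succ)
    fun c => by rw [Derivation.map_algebraMap]; exact zero_mem _⟩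

end Ada

theorem trdeg_κ (hK : FF K (n + 1)) (P : Pl K) : Algebra.trdeg ℂ P.κ = n := by
  have t : Algebra.trdeg ℂ P.κ + 1 = Algebra.trdeg ℂ K := P.dvl
  rwa [hK.trdeg, Nat.cast_add, Nat.cast_one, Cardinal.add_one_inj] at t

/-- independent elements of the residue field are part of adapted coordinates -/
theorem exists_ada (hK : FF K (n + 1)) (P : Pl K) : ∃ u : Fin n → K, Ada P P.t u := by
  obtain ⟨s, hs⟩ := exists_isTranscendenceBasis ℂ P.κ
  have c := hs.cardinalMk_eq_trdeg
  rw [trdeg_κ hK, ← Cardinal.mk_fin, Cardinal.eq] at c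
  obtain ⟨e⟩ := c
  choose u h1 h2 using fun i : Fin n => rd_surj (e.symm i : P.κ)
  exact ⟨u, P.ord_t, h1, funext h2 ▸ hs.1.comp _ e.symm.injective⟩

theorem no_pl (hK : FF K 0) (P : Pl K) : False := by
  have t : Algebra.trdeg ℂ P.κ + 1 = Algebra.trdeg ℂ K := P.dvl
  rw [hK.trdeg] at t
  simp at t

theorem exists_ad (hK : FF K n) (P : Pl K) :
    ∃ (t : Fin n → K) (D : Fin n → Derivation ℂ K K), Ad P t D := by
  rcases n with _ | n
  · exact (no_pl hK P).elim
  · obtain ⟨u, hu⟩ := exists_ada hK P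
    exact ⟨_, hu.ad hK⟩

end Vale.Agent.P287D.Cb
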