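import Vale.Agent.P287D.Cb.Fr
import Vale.Agent.P287D.Va.Bas

/-!
# P287D, block CAN: regular and logarithmic derivations at a place
-/

open Set
open Vale.Agent.P297Z

noncomputable section

namespace Vale.Agent.P287D.Cb

variable {K : Type} [Field K] [Algebra ℂ K] {P : Pl K} {d : K → K} {x y : K}

/-- the maximal ideal -/
def Mx (P : Pl K) (x : K) : Prop := x / P.t ∈ P.ring

theorem t_mem (P : Pl K) : P.t ∈ P.ring := (Pl.ord_nonneg_iff _ P.t_ne).1 (by rw [P.ord_t]; omega)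

theorem mx_iff : Mx P x ↔ x = 0 ∨ 0 < P.ord x := by
  by_cases h : x = 0
  · simp [h, Mx, zero_mem]
  · rw [Mx, ← Pl.ord_nonneg_iff _ (div_ne_zero h P.t_ne), Pl.ord_div _ h P.t_ne, P.ord_t]
    simp only [h, false_or]
    omega

theorem Mx.mem (h : Mx P x) : x ∈ P.ring := by
  have := mul_mem h (t_mem P)
  rwa [div_mul_cancel₀ _ P.t_ne] at this

theorem Mx.add (h : Mx P x) (k : Mx P y) : Mx P (x + y) := by
  rw [Mx, add_div]
  exact add_mem h k

theorem Mx.sub (h : Mx P x) (k : Mx P y) : Mx P (x - y) := by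
  rw [Mx, sub_div]
  exact sub_mem h k

theorem Mx.mul (h : Mx P x) (k : y ∈ P.ring) : Mx P (y * x) := by
  rw [Mx, mul_div_assoc]
  exact mul_mem k h

theorem mx_t (k : y ∈ P.ring) : Mx P (P.t * y) := by
  rwa [Mx, mul_div_cancel_left₀ _ P.t_ne]

theorem mx_zero : Mx P 0 := mx_iff.2 (Or.inl rfl)

theorem not_mx_one : ¬ Mx P 1 := by simp [mx_iff]

theorem inv_mem_of (h : ¬ Mx P x) : x⁻¹ ∈ P.ring := by
  rw [mx_iff, not_or] at h
  rw [← Pl.ord_nonneg_iff _ (inv_ne_zero h.1), Pl.ord_inv]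
  omega

theorem inv_mem_ord (h : P.ord x = 0) : x⁻¹ ∈ P.ring := by
  by_cases x0 : x = 0
  · simp [x0, zero_mem]
  · exact ((Pl.ord_eq_zero_iff _ x0).1 h).2

theorem mem_ord (h : 0 ≤ P.ord x) : x ∈ P.ring := by
  by_cases x0 : x = 0
  · simp [x0, zero_mem]
  · exact (Pl.ord_nonneg_iff _ x0).1 h

theorem rd_of (h : x ∈ P.ring) : P.rd x = IsLocalRing.residue P.ring ⟨x, h⟩ := dif_pos h

theorem rd_add (h : x ∈ P.ring) (k : y ∈ P.ring) : P.rd (x + y) = P.rd x + P.rd y := by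
  rw [rd_of h, rd_of k, rd_of (add_mem h k)]
  exact map_add (IsLocalRing.residue P.ring) ⟨x, h⟩ ⟨y, k⟩

theorem rd_mul (h : x ∈ P.ring) (k : y ∈ P.ring) : P.rd (x * y) = P.rd x * P.rd y := by
  rw [rd_of h, rd_of k, rd_of (mul_mem h k)]
  exact map_mul (IsLocalRing.residue P.ring) ⟨x, h⟩ ⟨y, k⟩

theorem rd_sub (h : x ∈ P.ring) (k : y ∈ P.ring) : P.rd (x - y) = P.rd x - P.rd y := by
  rw [rd_of h, rd_of k, rd_of (sub_mem h k)]
  exact map_sub (IsLocalRing.residue P.ring) ⟨x, h⟩ ⟨y, k⟩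

theorem rd_const (c : ℂ) : P.rd (algebraMap ℂ K c) = algebraMap ℂ P.κ c := rd_of (P.con c)

theorem rd_eq_zero (h : x ∈ P.ring) : P.rd x = 0 ↔ Mx P x := by
  rw [rd_of h, mx_iff]
  exact (IsLocalRing.residue_eq_zero_iff _).trans (Pl.mem_maximalIdeal_iff P.toPlace ⟨x, h⟩)

theorem rd_surj (a : P.κ) : ∃ f ∈ P.ring, P.rd f = a := by
  obtain ⟨f, rfl⟩ := IsLocalRing.residue_surjective (R := P.ring) a
  exact ⟨f, f.2, rd_of f.2⟩

/-- derivations of a field -/
abbrev De (d : K → K) : Prop := Dr (RingHom.id K) d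

/-- regular derivations -/
def Rg (P : Pl K) (d : K → K) : Prop := ∀ x ∈ P.ring, d x ∈ P.ring

/-- logarithmic derivations -/
def Lg (P : Pl K) (d : K → K) : Prop := ∀ x, d x / x ∈ P.ring

section ld

variable {A B : Type} [Field A] [Field B] {φ : A →+* B} {e : A → B}

theorem Dr.smul (h : Dr φ e) (b : B) : Dr φ fun x => b * e x :=
  ⟨fun x y => by rw [h.add, mul_add], fun x y => by rw [h.mul]; ring⟩

theorem Dr.comp {C : Type} [Field C] {ψ : B →+* C} {f : B → C} (h : Dr ψ f) (φ : A →+* B) :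
    Dr (ψ.comp φ) fun x => f (φ x) :=
  ⟨fun x y => by rw [map_add, h.add], fun x y => by rw [map_mul, h.mul]; rfl⟩

theorem Dr.ld_mul (h : Dr φ e) {x y : A} (hx : x ≠ 0) (hy : y ≠ 0) :
    e (x * y) / φ (x * y) = e x / φ x + e y / φ y := by
  have := (map_ne_zero φ).2 hx
  have := (map_ne_zero φ).2 hy
  rw [h.mul, map_mul]
  field_simp
  ring

theorem Dr.ld_inv (h : Dr φ e) (x : A) : e x⁻¹ / φ x⁻¹ = -(e x / φ x) := by
  by_cases hx : x = 0
  · simp [hx, h.zero]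
  · have := h.ld_mul hx (inv_ne_zero hx)
    rw [mul_inv_cancel₀ hx, h.one, zero_div] at this
    linear_combination -this

theorem Dr.ld_zpow (h : Dr φ e) {x : A} (hx : x ≠ 0) (k : ℤ) :
    e (x ^ k) / φ (x ^ k) = k * (e x / φ x) := by
  induction k using Int.induction_on with
  | zero => simp [h.one]
  | succ n ih =>
    rw [zpow_add_one₀ hx, h.ld_mul (zpow_ne_zero _ hx) hx, ih]
    push_cast
    ring
  | pred n ih =>
    rw [zpow_sub_one₀ hx, h.ld_mul (zpow_ne_zero _ hx) (inv_ne_zero hx), ih, h.ld_inv]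
    push_cast
    ring

end ld

theorem Lg.rg (h : De d) (l : Lg P d) : Rg P d := fun x hx => by
  by_cases x0 : x = 0
  · rw [x0, h.zero]
    exact zero_mem _
  · have := mul_mem (l x) hx
    rwa [div_mul_cancel₀ _ x0] at this

theorem Lg.mx (h : De d) (l : Lg P d) (hx : Mx P x) : Mx P (d x) := by
  by_cases x0 : x = 0
  · rw [x0, h.zero]
    exact mx_zero
  · have := hx.mul (l x)
    rwa [div_mul_cancel₀ _ x0] at this

theorem ld_eq (h : De d) (P : Pl K) (x0 : x ≠ 0) : ∃ u, u ∈ P.ring ∧ u⁻¹ ∈ P.ring ∧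
    d x / x = u⁻¹ * d u + P.ord x * (d P.t / P.t) := by
  have u0 : x * P.t ^ (-P.ord x) ≠ 0 := mul_ne_zero x0 (zpow_ne_zero _ P.t_ne)
  have o : P.ord (x * P.t ^ (-P.ord x)) = 0 := by rw [P.ord_mul_t x0, add_neg_cancel]
  refine ⟨_, mem_ord o.ge, inv_mem_ord o, ?_⟩
  have a := h.ld_mul x0 (zpow_ne_zero (-P.ord x) P.t_ne)
  rw [h.ld_zpow P.t_ne] at a
  simp only [RingHom.id_apply] at a
  rw [← div_eq_inv_mul, a]
  push_cast
  ring

theorem int_mem (P : Pl K) (k : ℤ) : (k : K) ∈ P.ring := intCast_mem _ k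

theorem int_inv_mem (P : Pl K) (k : ℤ) : (k : K)⁻¹ ∈ P.ring := by
  have := P.con (k : ℂ)⁻¹
  rwa [map_inv₀, map_intCast] at this

/-- a regular derivation which is logarithmic at one element of nonzero order -/
theorem Rg.lg (h : De d) (r : Rg P d) (ho : P.ord y ≠ 0) (hy : d y / y ∈ P.ring) : Lg P d := by
  have : CharZero K := charZero_of_injective_algebraMap (algebraMap ℂ K).injective
  have y0 : y ≠ 0 := fun e => ho (by simp [e])
  obtain ⟨u, h1, h2, h3⟩ := ld_eq h P y0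
  have ht : d P.t / P.t ∈ P.ring := by
    have := mul_mem (int_inv_mem P (P.ord y)) (sub_mem hy (mul_mem h2 (r u h1)))
    rwa [h3, add_sub_cancel_left, inv_mul_cancel_left₀ (Int.cast_ne_zero.2 ho)] at this
  intro x
  by_cases x0 : x = 0
  · simp [x0, zero_mem]
  · obtain ⟨u, h1, h2, h3⟩ := ld_eq h P x0
    rw [h3]
    exact add_mem (mul_mem h2 (r u h1)) (mul_mem (int_mem P _) ht)

theorem Rg.smul (r : Rg P d) (hy : y ∈ P.ring) : Rg P fun x => y * d x :=
  fun x hx => mul_mem hy (r x hx)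

theorem Rg.lg_t (h : De d) (r : Rg P d) : Lg P fun x => P.t * d x :=
  (r.smul (t_mem P)).lg (h.smul _) (y := P.t) (by rw [P.ord_t]; omega) (by
    rw [mul_div_cancel_left₀ _ P.t_ne]
    exact r _ (t_mem P))

/-- the derivation of the residue field -/
theorem Lg.bar (h : De d) (l : Lg P d) : ∃ e : P.κ → P.κ, Dr (RingHom.id _) e ∧
    ∀ x ∈ P.ring, e (P.rd x) = P.rd (d x) := by
  choose f hf hr using fun a : P.κ => rd_surj a
  have r := l.rg h
  have k : ∀ x ∈ P.ring, P.rd (d (f (P.rd x))) = P.rd (d x) := fun x hx => by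
    have a : Mx P (f (P.rd x) - x) := by
      rw [← rd_eq_zero (sub_mem (hf _) hx), rd_sub (hf _) hx, hr, sub_self]
    have b := l.mx h a
    rw [sub_eq_add_neg, h.add, h.neg, ← sub_eq_add_neg,
      ← rd_eq_zero (sub_mem (r _ (hf _)) (r _ hx)), rd_sub (r _ (hf _)) (r _ hx)] at b
    exact sub_eq_zero.1 b
  refine ⟨fun a => P.rd (d (f a)), ⟨fun a b => ?_, fun a b => ?_⟩, k⟩
  · conv_lhs => rw [← hr a, ← hr b, ← rd_add (hf a) (hf b)]
    rw [k _ (add_mem (hf a) (hf b)), h.add, rd_add (r _ (hf a)) (r _ (hf b))]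
  · conv_lhs => rw [← hr a, ← hr b, ← rd_mul (hf a) (hf b)]
    rw [k _ (mul_mem (hf a) (hf b)), h.mul, RingHom.id_apply, RingHom.id_apply,
      rd_add (mul_mem (hf a) (r _ (hf b))) (mul_mem (hf b) (r _ (hf a))),
      rd_mul (hf a) (r _ (hf b)), rd_mul (hf b) (r _ (hf a)), hr, hr]
    rfl

/-- the residue field is algebraic over the residues of `S` -/
def Sp (P : Pl K) (S : Set K) : Prop :=
  S ⊆ P.ring ∧ ∀ a : P.κ, IsAlgebraic (Algebra.adjoin ℂ (P.rd '' S)) a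

theorem Lg.small (h : De d) (l : Lg P d) {S : Set K} (hS : Sp P S) (h1 : ∀ s ∈ S, Mx P (d s))
    (h2 : ∀ c, Mx P (d (algebraMap ℂ K c))) (hx : x ∈ P.ring) : Mx P (d x) := by
  obtain ⟨e, he, k⟩ := l.bar h
  rw [← rd_eq_zero (l.rg h x hx), ← k x hx]
  refine he.kill (fun c => ?_) ?_ (hS.2 _)
  · rw [← rd_const, k _ (P.con c), rd_eq_zero (h2 c).mem]
    exact h2 c
  · rintro _ ⟨s, hs, rfl⟩
    rw [k _ (hS.1 hs), rd_eq_zero (h1 s hs).mem]
    exact h1 s hs

/-- descent, regular form -/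
theorem rg_of (h : De d) {S : Set K} (hS : Sp P S) (h1 : ∀ s ∈ S, d s ∈ P.ring)
    (h2 : ∀ c, d (algebraMap ℂ K c) ∈ P.ring) (h3 : d P.t ∈ P.ring) (c : ℕ)
    (r : Rg P fun x => P.t ^ c * d x) : Rg P d := by
  induction c with
  | zero => simpa using r
  | succ c ih =>
    have e : ∀ z ∈ P.ring, Mx P (P.t ^ (c + 1) * z) := fun z hz => by
      rw [pow_succ', mul_assoc]
      exact mx_t (mul_mem (pow_mem (t_mem P) _) hz)
    have l := r.lg (h.smul _) (y := P.t) (by rw [P.ord_t]; omega) (e _ h3)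
    refine ih fun x hx => ?_
    have := l.small (h.smul _) hS (fun s hs => e _ (h1 s hs)) (fun c => e _ (h2 c)) hx
    rwa [Mx, pow_succ', mul_assoc, mul_div_cancel_left₀ _ P.t_ne] at this

/-- descent, logarithmic form -/
theorem lg_of (h : De d) {S : Set K} (hS : Sp P S) (h1 : ∀ s ∈ S, d s ∈ P.ring)
    (h2 : ∀ c, d (algebraMap ℂ K c) ∈ P.ring) (ho : P.ord y ≠ 0) (hy : d y / y ∈ P.ring) (c : ℕ)
    (l : Lg P fun x => P.t ^ c * d x) : Lg P d := by
  have : CharZero K := charZero_of_injective_algebraMap (algebraMap ℂ K).injective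
  induction c with
  | zero => simpa using l
  | succ c ih =>
    have e : ∀ z ∈ P.ring, Mx P (P.t ^ (c + 1) * z) := fun z hz => by
      rw [pow_succ', mul_assoc]
      exact mx_t (mul_mem (pow_mem (t_mem P) _) hz)
    have s := fun x hx => l.small (x := x) (h.smul _) hS (fun s hs => e _ (h1 s hs))
      (fun c => e _ (h2 c)) hx
    have y0 : y ≠ 0 := fun e => ho (by simp [e])
    obtain ⟨u, k1, k2, k3⟩ := ld_eq (h.smul (P.t ^ (c + 1))) P y0
    have ht : Mx P (P.t ^ (c + 1) * d P.t / P.t) := by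
      have := ((e _ hy).sub ((s u k1).mul k2)).mul (int_inv_mem P (P.ord y))
      rwa [← mul_div_assoc, k3, add_sub_cancel_left,
        inv_mul_cancel_left₀ (Int.cast_ne_zero.2 ho)] at this
    refine ih fun x => ?_
    by_cases x0 : x = 0
    · simp [x0, zero_mem]
    · obtain ⟨u, k1, k2, k3⟩ := ld_eq (h.smul (P.t ^ (c + 1))) P x0
      have := ((s u k1).mul k2).add (ht.mul (int_mem P (P.ord x)))
      rwa [← k3, Mx, pow_succ', mul_assoc, mul_div_assoc, mul_div_cancel_left₀ _ P.t_ne] at this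

end Vale.Agent.P287D.Cb
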