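import Vale.Agent.P287D.Cb.Ad
import Vale.Agent.P287D.Pb.Bas

/-!
# P287D, block CAN: the canonical b-divisor, comparison along ring homomorphisms
-/

open Set
open Vale.Agent.P285N.Brep (jac Fr)
open Vale.Agent.P297Z

noncomputable section

namespace Vale.Agent.P287D.Cb

variable {K K' : Type} [Field K] [Algebra ℂ K] [Field K'] [Algebra ℂ K'] {n : ℕ}

/-- **K2** -/
theorem kap_chg {y : Fin n → K} {D : Fin n → Derivation ℂ K K} (h : Fr y D) {z : Fin n → K}
    (hz : jac D z ≠ 0) : kap z = kap y + dv (jac D z) := funext fun P => by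
  obtain ⟨t, E, a⟩ := exists_ad (ff_of h) P
  rw [Pi.add_apply, kap_eq a, kap_eq a, jac_chain h, Pl.ord_mul _ (jac_ne h a.fr) hz, dv_apply,
    Int.cast_add]

theorem exists_cn (hK : FF K n) :
    ∃ (y : Fin n → K) (D : Fin n → Derivation ℂ K K), Fr y D ∧ cn K n = kap y := by
  have e : ∃ (y : Fin n → K) (D : Fin n → Derivation ℂ K K), Fr y D :=
    hK.elim fun y hy => ⟨y, fr_of hK hy.1⟩
  exact ⟨_, _, e.choose_spec.choose_spec, dif_pos e⟩

theorem kap_cn (hK : FF K n) {z : Fin n → K} (hz : AlgebraicIndependent ℂ z) :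
    ∃ f, f ≠ 0 ∧ kap z = cn K n + dv f := by
  obtain ⟨y, D, h, e⟩ := exists_cn hK
  exact ⟨_, (jac_ne_iff h z).2 hz, e ▸ kap_chg h ((jac_ne_iff h z).2 hz)⟩

theorem cn_kap (hK : FF K n) {z : Fin n → K} (hz : AlgebraicIndependent ℂ z) :
    ∃ f, f ≠ 0 ∧ cn K n = kap z + dv f := by
  obtain ⟨f, f0, e⟩ := kap_cn hK hz
  exact ⟨f⁻¹, inv_ne_zero f0, by rw [e, dv_inv, add_neg_cancel_right]⟩

theorem kap_int (y : Fin n → K) (P : Pl K) : ∃ z : ℤ, kap y P = z := by
  unfold kap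
  split_ifs
  exacts [⟨_, rfl⟩, ⟨0, by simp⟩]

theorem cn_int (P : Pl K) : ∃ z : ℤ, cn K n P = z := by
  unfold cn
  split_ifs
  exacts [kap_int _ P, ⟨0, by simp⟩]

theorem kap_perm (hK : FF K n) (y : Fin n → K) (σ : Equiv.Perm (Fin n)) :
    kap (y ∘ σ) = kap y := funext fun P => by
  obtain ⟨t, E, a⟩ := exists_ad hK P
  have : jac E (y ∘ σ) = (Equiv.Perm.sign σ : ℤ) * jac E y :=
    Matrix.det_permute' σ (Matrix.of fun i j => E i (y j))
  rw [kap_eq a, kap_eq a, this]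
  rcases Int.units_eq_one_or (Equiv.Perm.sign σ) with h | h <;> simp [h]

theorem ord_det {ι : Type} [Fintype ι] [DecidableEq ι] (P : Pl K) {a : Matrix ι ι K} {c : ι → K}
    (hc : ∀ j, c j ≠ 0) (h : ∀ i j, a i j / c j ∈ P.ring) (h0 : a.det ≠ 0) :
    ∑ j, P.ord (c j) ≤ P.ord a.det := by
  have e : a.det = (∏ j, c j) * (Matrix.of fun i j => a i j / c j).det := by
    rw [← Matrix.det_mul_row]
    congr 1
    ext i j
    simp [mul_div_cancel₀ _ (hc j)]
  have m := Pl.ord_nonneg_of_mem _ (det_mem P.ring (a := Matrix.of fun i j => a i j / c j) h)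
  rw [e] at h0 ⊢
  rw [Pl.ord_mul _ (left_ne_zero_of_mul h0) (right_ne_zero_of_mul h0),
    P.ord_prod _ fun j _ => hc j]
  omega

/-- a logarithmic frame -/
structure Lf (P : Pl K) (L : Fin n → Derivation ℂ K K) : Prop where
  lg : ∀ i, Lg P (L i)
  ne : ∀ z, AlgebraicIndependent ℂ z → jac L z ≠ 0
  eq : ∀ z, AlgebraicIndependent ℂ z → kap z P + 1 = P.ord (jac L z)

theorem Ada.lf {P : Pl K} {π : K} {u : Fin n → K} (a : Ada P π u)
    {D : Fin (n + 1) → Derivation ℂ K K} (h : Ad P (Fin.cons π u) D) :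
    Lf P (Fin.cons (π • D 0) fun i => D i.succ) := by
  have e : ∀ z, jac (Fin.cons (π • D 0) fun i => D i.succ) z = π * jac D z := fun z => by
    have := Matrix.det_mul_column (Fin.cons π fun _ => 1 : Fin (n + 1) → K)
      (Matrix.of fun i j => D i (z j))
    rw [Fin.prod_univ_succ, Fin.cons_zero] at this
    simp only [Fin.cons_succ, Finset.prod_const_one, mul_one] at this
    rw [jac, jac, ← this]
    congr 1
    ext i j
    refine Fin.cases ?_ (fun i => ?_) i <;> simp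
  have o : P.ord π ≠ 0 := by rw [a.ord]; omega
  refine ⟨fun i => ?_, fun z hz => ?_, fun z hz => ?_⟩
  · refine Fin.cases ?_ (fun i => ?_) i
    · refine Rg.lg (dr_of (π • D 0)) (fun x hx => mul_mem a.mx.mem (h.pre 0 x hx)) o ?_
      have := h.fr.dual 0 0
      simp only [Fin.cons_zero, if_true] at this
      simp [this, a.ne, one_mem]
    · refine Rg.lg (dr_of (D i.succ)) (h.pre _) o ?_
      have := h.fr.dual i.succ 0
      simp only [Fin.cons_zero, Fin.succ_ne_zero, if_false] at this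
      simp [this, zero_mem]
  · exact e z ▸ mul_ne_zero a.ne ((jac_ne_iff h.fr z).2 hz)
  · rw [e, Pl.ord_mul _ a.ne ((jac_ne_iff h.fr z).2 hz), a.ord, kap_eq h]
    push_cast
    ring

theorem exists_lf (hK : FF K n) (P : Pl K) : ∃ L : Fin n → Derivation ℂ K K, Lf P L := by
  rcases n with _ | n
  · exact (no_pl hK P).elim
  · obtain ⟨u, hu⟩ := exists_ada hK P
    exact (hu.ad hK).elim fun _ h => ⟨_, hu.lf h⟩

/-- **K3** -/
theorem sum_le_kap (hK : FF K n) {y : Fin n → K} (hy : AlgebraicIndependent ℂ y) (P : Pl K) :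
    ∑ i, (P.ord (y i) : ℝ) ≤ kap y P + 1 := by
  obtain ⟨L, h⟩ := exists_lf hK P
  rw [h.eq y hy]
  exact_mod_cast ord_det P hy.ne_zero (fun i j => h.lg i _) (h.ne y hy)

variable {φ : K →+* K'} {P : Pl K'} {Q : Pl K} {σ : Type} [Fintype σ] [DecidableEq σ]

/-- the determinant of derivations of `K'` on elements of `K` and further elements -/
def dt (φ : K →+* K') (d : Fin n ⊕ σ → K' → K') (y : Fin n → K) (s : σ → K') : K' :=
  (Matrix.of fun i j => d i (Sum.elim (fun j => φ (y j)) s j)).det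

omit [Algebra ℂ K'] in
theorem dt_chain {d : Fin n ⊕ σ → K' → K'} (hd : ∀ i, De (d i))
    (hc : ∀ i c, d i (φ (algebraMap ℂ K c)) = 0) {t : Fin n → K} {D : Fin n → Derivation ℂ K K}
    (h : Fr t D) (y : Fin n → K) (s : σ → K') : dt φ d y s = dt φ d t s * φ (jac D y) := by
  have e : φ (jac D y) = (Matrix.fromBlocks (Matrix.of fun i j => φ (D i (y j))) 0 0
      (1 : Matrix σ σ K')).det := by
    rw [Matrix.det_fromBlocks_zero₂₁, Matrix.det_one, mul_one, jac, RingHom.map_det]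
    rfl
  rw [e, dt, dt, ← Matrix.det_mul]
  congr 1
  ext i j
  rw [Matrix.mul_apply, Fintype.sum_sum_type]
  rcases j with j | j
  · simpa using expand ((hd i).comp φ) (hc i) h (y j)
  · simp [Matrix.one_apply]

/-- **K4**, logarithmic form -/
theorem log_le (hK : FF K n) (l : Lies φ P Q) {d : Fin n ⊕ σ → K' → K'} (hd : ∀ i, De (d i))
    (hc : ∀ i c, d i (φ (algebraMap ℂ K c)) = 0) (hl : ∀ i, Lg P (d i)) {y : Fin n → K}
    {s : σ → K'} (h0 : dt φ d y s ≠ 0) :
    P.ord (φ Q.t) * (kap y Q + 1) + ∑ j, (P.ord (s j) : ℝ) ≤ P.ord (dt φ d y s) := by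
  rcases n with _ | n
  · exact (no_pl hK Q).elim
  obtain ⟨u, a⟩ := exists_ada hK Q
  obtain ⟨D, h⟩ := a.ad hK
  rw [dt_chain hd hc h.fr] at h0 ⊢
  have s0 : ∀ j, s j ≠ 0 := fun j e => left_ne_zero_of_mul h0
    (Matrix.det_eq_zero_of_column_eq_zero (.inr j) fun i => by simp [e, (hd i).zero])
  have k : _ ≤ P.ord (dt φ d (Fin.cons Q.t u) s) := ord_det P (c := Sum.elim (fun j => φ ((Fin.cons Q.t u : Fin (n + 1) → K) j)) s)
    (by rintro (j | j); exacts [(map_ne_zero φ).2 (a.indep.ne_zero j), s0 j])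
    (fun i j => hl i _) (left_ne_zero_of_mul h0)
  rw [Fintype.sum_sum_type, Fin.sum_univ_succ] at k
  simp only [Sum.elim_inl, Sum.elim_inr, Fin.cons_zero, Fin.cons_succ, l.ord (u _),
    (a.ord_u _).2, mul_zero, Finset.sum_const_zero, add_zero] at k
  rw [Pl.ord_mul _ (left_ne_zero_of_mul h0) (right_ne_zero_of_mul h0), l.ord (jac D y), kap_eq h]
  have k' := Int.cast_le (R := ℝ).2 k
  push_cast at k' ⊢
  linarith

/-- **K4**, regular form -/
theorem reg_le (hK : FF K n) (l : Lies φ P Q) {d : Fin n ⊕ σ → K' → K'} (hd : ∀ i, De (d i))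
    (hc : ∀ i c, d i (φ (algebraMap ℂ K c)) = 0) (hl : ∀ i, Rg P (d i)) {y : Fin n → K}
    {s : σ → K'} (hs : ∀ j, s j ∈ P.ring) (h0 : dt φ d y s ≠ 0) :
    P.ord (φ Q.t) * kap y Q ≤ P.ord (dt φ d y s) := by
  obtain ⟨t, D, h⟩ := exists_ad hK Q
  rw [dt_chain hd hc h.fr] at h0 ⊢
  have k : 0 ≤ P.ord (dt φ d t s) := Pl.ord_nonneg_of_mem _ (det_mem _ fun i j => hl i _ (by
    rcases j with j | j
    exacts [(l _).1 (h.mem j), hs j]))
  rw [Pl.ord_mul _ (left_ne_zero_of_mul h0) (right_ne_zero_of_mul h0), l.ord (jac D y), kap_eq h]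
  have k' := Int.cast_le (R := ℝ).2 k
  push_cast at k' ⊢
  linarith

omit [Algebra ℂ K] in
theorem trv_le (l : Trv φ P) {d : Fin n ⊕ σ → K' → K'} (hl : ∀ i, Rg P (d i)) (y : Fin n → K)
    {s : σ → K'} (hs : ∀ j, s j ∈ P.ring) : 0 ≤ P.ord (dt φ d y s) :=
  Pl.ord_nonneg_of_mem _ (det_mem _ fun i j => hl i _ (by
    rcases j with j | j
    exacts [l _, hs j]))

end Vale.Agent.P287D.Cb
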