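import Vale.Agent.P287D.Cb.Hur
import Vale.Agent.P287D.St

/-!
# P287D, block CAN: finite maps, fibrations, generic fibres
-/

open Set Polynomial
open Vale.Agent.P285N.Brep (jac Fr)
open Vale.Agent.P297Z

noncomputable section

namespace Vale.Agent.P287D.Cb

variable {K K' : Type} [Field K] [Algebra ℂ K] [Field K'] [Algebra ℂ K'] {n r m : ℕ}
  {φ : K →+* K'} {P : Pl K'} {Q : Pl K}

/-- `K'` is algebraic over the image of `φ` -/
def Alg (φ : K →+* K') : Prop := ∀ x : K', ∃ p : K[X], p ≠ 0 ∧ p.eval₂ φ x = 0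

omit [Algebra ℂ K] in
theorem Alg.alc (h : Alg φ) : Alc φ := fun x => by
  obtain ⟨p, p0, hp⟩ := h x
  let ψ : K →+* Algebra.adjoin ℂ (range φ) :=
    φ.codRestrict _ fun a => Algebra.subset_adjoin ⟨a, rfl⟩
  exact ⟨p.map ψ, (Polynomial.map_ne_zero_iff ψ.injective).2 p0, by
    rw [aeval_def, eval₂_map]; exact hp⟩

theorem Alg.sp (h : Alg φ) (l : Lies φ P Q) : Sp P (φ '' Q.ring) := by
  refine ⟨by rintro _ ⟨x, hx, rfl⟩; exact (l x).1 hx, fun a => ?_⟩
  obtain ⟨x, hx, rfl⟩ := rd_surj a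
  obtain ⟨q, q0, hq⟩ := h x
  obtain ⟨i0, hi0, hm⟩ := q.support.exists_min_image (fun i => Q.ord (q.coeff i))
    (support_nonempty.2 q0)
  have c0 : q.coeff i0 ≠ 0 := mem_support_iff.1 hi0
  obtain ⟨p, hp⟩ : C (q.coeff i0)⁻¹ * q ∈ lifts (algebraMap Q.ring K) := by
    refine (lifts_iff_coeff_lifts _).2 fun i =>
      ⟨⟨(q.coeff i0)⁻¹ * q.coeff i, ?_⟩, (coeff_C_mul q).symm⟩
    by_cases ci : q.coeff i = 0
    · simp [ci, zero_mem]
    · have := hm i (mem_support_iff.2 ci)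
      refine mem_ord ?_
      rw [Pl.ord_mul _ (inv_ne_zero c0) ci, Pl.ord_inv]
      omega
  rw [coe_mapRingHom] at hp
  let φ' : Q.ring →+* P.ring := (φ.comp (algebraMap Q.ring K)).codRestrict _ fun a => (l a).1 a.2
  let ρ : P.ring →+* P.κ := IsLocalRing.residue P.ring
  let ψ : Q.ring →+* Algebra.adjoin ℂ (P.rd '' (φ '' Q.ring)) := (ρ.comp φ').codRestrict _
    fun a => Algebra.subset_adjoin ⟨_, ⟨a, a.2, rfl⟩, rd_of ((l a).1 a.2)⟩
  have e1 : p.eval₂ φ' ⟨x, hx⟩ = 0 := Subtype.ext (by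
    have := hom_eval₂ p φ' (algebraMap P.ring K') ⟨x, hx⟩
    refine this.trans ?_
    change p.eval₂ (φ.comp (algebraMap Q.ring K)) x = 0
    rw [← eval₂_map, hp, eval₂_mul, hq, mul_zero])
  refine ⟨p.map ψ, fun e => ?_, ?_⟩
  · have k : p.coeff i0 = 1 := Subtype.ext (by
      have := congrArg (coeff · i0) hp
      simp only [coeff_map, coeff_C_mul, inv_mul_cancel₀ c0] at this
      exact this)
    have := congrArg (coeff · i0) e
    simp [k] at this
  · rw [aeval_def, eval₂_map, rd_of hx]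
    exact (hom_eval₂ p φ' ρ ⟨x, hx⟩).symm.trans (by rw [e1, map_zero])

/-- the algebra homomorphism -/
def ah (φ : K →+* K') (h : ∀ c, φ (algebraMap ℂ K c) = algebraMap ℂ K' c) : K →ₐ[ℂ] K' :=
  { φ with commutes' := h }

theorem alg_of_ff (hK : FF K n) (hK' : FF K' n)
    (h : ∀ c, φ (algebraMap ℂ K c) = algebraMap ℂ K' c) : Alg φ := fun x => by
  obtain ⟨y, hy, -⟩ := hK
  let _ := φ.toAlgebra
  have : IsScalarTower ℂ K K' := .of_algebraMap_eq fun c => (h c).symm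
  have b := hK'.basis (hy.map' (f := ah φ h) φ.injective)
  have a := b.isAlgebraic.isAlgebraic x
  obtain ⟨p, p0, hp⟩ := a
  obtain ⟨q, hq⟩ : p.map (algebraMap _ K') ∈ lifts φ := (lifts_iff_coeff_lifts _).2 fun i => by
    rw [coeff_map]
    have : Algebra.adjoin ℂ (range (ah φ h ∘ y)) ≤ (ah φ h).range :=
      Algebra.adjoin_le (by rintro _ ⟨j, rfl⟩; exact ⟨y j, rfl⟩)
    exact this (p.coeff i).2
  rw [coe_mapRingHom] at hq
  refine ⟨q, fun e => p0 ?_, by rw [← eval_map, hq, eval_map_algebraMap, hp]⟩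
  rw [e, Polynomial.map_zero] at hq
  exact (Polynomial.map_eq_zero_iff Subtype.val_injective).1 hq.symm

theorem ind_ah (h : ∀ c, φ (algebraMap ℂ K c) = algebraMap ℂ K' c) {ι : Type} {y : ι → K}
    (hy : AlgebraicIndependent ℂ y) : AlgebraicIndependent ℂ fun i => φ (y i) :=
  hy.map' (f := ah φ h) φ.injective

/-- **K4**, finite maps -/
theorem hur (hK : FF K n) (hK' : FF K' n) (h : ∀ c, φ (algebraMap ℂ K c) = algebraMap ℂ K' c)
    (l : Lies φ P Q) {z : Fin n → K} (hz : AlgebraicIndependent ℂ z) :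
    kap (fun i => φ (z i)) P + 1 = P.ord (φ Q.t) * (kap z Q + 1) := by
  have a := alg_of_ff hK hK' h
  have e : Fin.append z (Fin.elim0 : Fin 0 → K) = z := Fin.append_elim0 z
  have := rel_eq (m := 0) hK hK' (fun c => ⟨c, (h c).symm⟩) a.alc l (a.sp l) (y := Fin.elim0)
    (fun j => j.elim0) (z := z) (by rwa [e])
  rwa [e] at this

/-- **PB.hur** -/
theorem pb_hur (n : ℕ) : ForH fun K K' _ _ _ _ φ => FF K n → FF K' n →
    (∀ c, φ (algebraMap ℂ K c) = algebraMap ℂ K' c) → ∃ f : K', f ≠ 0 ∧ ∀ P Q, Lies φ P Q →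
      (cn K' n + dv f) P + 1 = P.ord (φ Q.t) * (cn K n Q + 1) := by
  intro K K' _ _ _ _ φ hK hK' h
  obtain ⟨y, D, hD, e⟩ := exists_cn hK
  have hy := (jac_ne_iff hD y).1 (by rw [jac_self hD]; exact one_ne_zero)
  obtain ⟨f, f0, e'⟩ := kap_cn hK' (ind_ah h hy)
  exact ⟨f, f0, fun P Q l => by rw [← e', e, hur hK hK' h l hy]⟩

/-- **K4**, fibrations: any arrangement `e` of the coordinates -/
theorem fib_le {σ : Type} [Fintype σ] (hK : FF K n) (hK' : FF K' m)
    (h : ∀ c, φ (algebraMap ℂ K c) = algebraMap ℂ K' c) (l : Lies φ P Q) {y : Fin n → K}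
    {s : σ → K'} (e : Fin m ≃ Fin n ⊕ σ)
    (hi : AlgebraicIndependent ℂ fun i => Sum.elim (fun j => φ (y j)) s (e i)) :
    P.ord (φ Q.t) * (kap y Q + 1) + ∑ j, (P.ord (s j) : ℝ) ≤
      kap (fun i => Sum.elim (fun j => φ (y j)) s (e i)) P + 1 := by
  classical
  obtain ⟨L, hL⟩ := exists_lf hK' P
  have k : dt φ (fun i => L (e.symm i)) y s =
      jac L fun i => Sum.elim (fun j => φ (y j)) s (e i) := by
    rw [dt, jac, ← Matrix.det_submatrix_equiv_self e]
    congr 1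
    ext i j
    simp
  rw [hL.eq _ hi, ← k]
  exact log_le hK l (fun i => dr_of _) (fun i c => by rw [h, Derivation.map_algebraMap])
    (fun i => hL.lg _) (k ▸ hL.ne _ hi)

/-- **K4**, one more coordinate -/
theorem fib_cons (hK : FF K n) (hK' : FF K' (n + 1))
    (h : ∀ c, φ (algebraMap ℂ K c) = algebraMap ℂ K' c) (l : Lies φ P Q) {y : Fin n → K} {s : K'}
    (hi : AlgebraicIndependent ℂ (Fin.cons s fun j => φ (y j) : Fin (n + 1) → K')) :
    P.ord (φ Q.t) * (kap y Q + 1) + P.ord s ≤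
      kap (Fin.cons s fun j => φ (y j) : Fin (n + 1) → K') P + 1 := by
  let e : Fin (n + 1) ≃ Fin n ⊕ Unit := (finSuccEquiv n).trans (Equiv.optionEquivSumPUnit _)
  have k : (fun i => Sum.elim (fun j => φ (y j)) (fun _ => s) (e i)) =
      (Fin.cons s fun j => φ (y j) : Fin (n + 1) → K') := funext fun i => by
    refine Fin.cases ?_ (fun i => ?_) i <;> simp [e]
  have := fib_le hK hK' h l (y := y) (s := fun _ => s) e (k ▸ hi)
  rwa [k, Fintype.sum_unique] at this

/-- **K4**, fibrations -/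
theorem fib_append (hK : FF K n) (hK' : FF K' (n + m))
    (h : ∀ c, φ (algebraMap ℂ K c) = algebraMap ℂ K' c) (l : Lies φ P Q) {y : Fin n → K}
    {s : Fin m → K'} (hi : AlgebraicIndependent ℂ (Fin.append (fun j => φ (y j)) s)) :
    P.ord (φ Q.t) * (kap y Q + 1) + ∑ j, (P.ord (s j) : ℝ) ≤
      kap (Fin.append (fun j => φ (y j)) s) P + 1 := by
  have k : (fun i => Sum.elim (fun j => φ (y j)) s (finSumFinEquiv.symm i)) =
      Fin.append (fun j => φ (y j)) s := funext fun i => by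
    refine Fin.addCases (fun i => ?_) (fun i => ?_) i <;> simp
  have := fib_le hK hK' h l (y := y) (s := s) finSumFinEquiv.symm (k ▸ hi)
  rwa [k] at this

theorem Ada.kap {P : Pl K} {π : K} {u : Fin n → K} (a : Ada P π u) (hK : FF K (n + 1)) :
    kap (Fin.cons π u : Fin (n + 1) → K) P = 0 := by
  obtain ⟨D, h⟩ := a.ad hK
  rw [kap_eq h, jac_self h.fr, Pl.ord_one, Int.cast_zero]

theorem kap_nonneg {P : Pl K} (hK : FF K n) {y : Fin n → K} (h : ∀ i, y i ∈ P.ring) :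
    0 ≤ kap y P := by
  obtain ⟨t, D, a⟩ := exists_ad hK P
  rw [kap_eq a]
  exact_mod_cast Pl.ord_nonneg_of_mem _ (det_mem _ fun i j => a.pre i _ (h j))

theorem alg_of_gf {L : IntermediateField ℂ K} (h : GF L φ) : Alg φ := fun x => by
  let _ := φ.toAlgebra
  have le : Subfield.closure (range φ ∪ range (algebraMap ℂ K')) ≤
      (algebraicClosure K K').toSubfield := Subfield.closure_le.2 (by
    rintro _ (⟨a, rfl⟩ | ⟨c, rfl⟩)
    · exact (algebraicClosure K K').algebraMap_mem a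
    · obtain ⟨p, p0, hp⟩ := h.alg c
      exact mem_algebraicClosure_iff.2 ⟨p.map (algebraMap L K),
        (Polynomial.map_ne_zero_iff (algebraMap L K).injective).2 p0, by
          rw [aeval_def, eval₂_map]; exact hp⟩)
  exact mem_algebraicClosure_iff.1 (le (h.gen ▸ Subfield.mem_top x))

/-- independent coordinates over a subfield -/
theorem exists_append {L : IntermediateField ℂ K} (hL : FF L m) (hK : FF K (r + m)) :
    ∃ (z : Fin r → K) (y : Fin m → K), (∀ j, y j ∈ L) ∧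
      AlgebraicIndependent ℂ (Fin.append z y) := by
  obtain ⟨y, hy, -⟩ := hL
  obtain ⟨z, hz⟩ := ext_ind (hy.map' (f := L.val) L.val.injective) r (by simp [hK.trdeg])
  exact ⟨z, _, fun j => (y j).2, ind_append.2 hz⟩

/-- the canonical class of the generic fibre at a place -/
theorem gf_can {L : IntermediateField ℂ K} (h : GF L φ) (hL : FF L m) (hK : FF K (r + m))
    (hK' : FF K' r) : ∃ f : K', f ≠ 0 ∧ ∀ P Q, Lies φ P Q →
      (cn K' r + dv f) P + 1 = P.ord (φ Q.t) * (cn K (r + m) Q + 1) := by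
  obtain ⟨z, y, hy, hi⟩ := exists_append hL hK
  have a := alg_of_gf h
  have hc : ∀ c, φ (algebraMap ℂ K c) ∈ range (algebraMap ℂ K') :=
    fun c => h.cst _ (L.algebraMap_mem c)
  obtain ⟨D, hD⟩ := fr_of hK hi
  obtain ⟨f, f0, e⟩ := kap_cn hK' (ind_map hc (fun j => h.cst _ (hy j)) hD hK' a.alc)
  obtain ⟨g, g0, e'⟩ := cn_kap hK hi
  refine ⟨f * φ g, mul_ne_zero f0 ((map_ne_zero φ).2 g0), fun P Q l => ?_⟩
  have := rel_eq hK hK' hc a.alc l (a.sp l) (fun j => h.cst _ (hy j)) hi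
  rw [dv_mul f0 ((map_ne_zero φ).2 g0), ← add_assoc, ← e, e', Pi.add_apply, Pi.add_apply,
    dv_apply, dv_apply, l.ord g]
  push_cast
  linarith

/-- **GEN.can** from the places of the generic fibre -/
theorem gen_can_of {L : IntermediateField ℂ K} (h : GF L φ) (hL : FF L m) (hK : FF K (r + m))
    (hK' : FF K' r) (ho : ∀ P : Pl K', ∃ Q, Lies φ P Q ∧ P.ord (φ Q.t) = 1) :
    ∃ f : K', f ≠ 0 ∧ cn K' r + dv f = pb φ (cn K (r + m)) := by
  obtain ⟨f, f0, e⟩ := gf_can h hL hK hK'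
  refine ⟨f, f0, funext fun P => ?_⟩
  obtain ⟨Q, l, o⟩ := ho P
  have := e P Q l
  rw [l.pb, o] at *
  push_cast at *
  linarith

end Vale.Agent.P287D.Cb
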