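import Vale.Agent.P287D.Cb.Kap

/-!
# P287D, block CAN: the formula of Riemann and Hurwitz at a place, generic fibres
-/

open Set
open Vale.Agent.P285N.Brep (jac Fr)
open Vale.Agent.P297Z

noncomputable section

namespace Vale.Agent.P287D.Cb

variable {K K' : Type} [Field K] [Algebra ℂ K] [Field K'] [Algebra ℂ K'] {n r m : ℕ}

theorem log_le₀ {φ : K →+* K'} {P : Pl K'} {Q : Pl K} (hK : FF K n) (l : Lies φ P Q)
    {d : Fin n → K' → K'} (hd : ∀ i, De (d i)) (hc : ∀ i c, d i (φ (algebraMap ℂ K c)) = 0)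
    (hl : ∀ i, Lg P (d i)) {y : Fin n → K}
    (h0 : (Matrix.of fun i j => d i (φ (y j))).det ≠ 0) :
    P.ord (φ Q.t) * (kap y Q + 1) ≤ P.ord (Matrix.of fun i j => d i (φ (y j))).det := by
  have e : dt φ (σ := Empty) (fun i => d (Equiv.sumEmpty _ _ i)) y Empty.elim =
      (Matrix.of fun i j => d i (φ (y j))).det := by
    rw [← Matrix.det_submatrix_equiv_self (Equiv.sumEmpty (Fin n) Empty), dt]
    congr 1
    ext i j
    rcases j with j | j
    exacts [rfl, j.elim]
  have := log_le (σ := Empty) hK l (fun i => hd (Equiv.sumEmpty _ _ i)) (fun i => hc _)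
    (fun i => hl _) (e ▸ h0)
  rwa [e, Finset.univ_eq_empty, Finset.sum_empty, add_zero] at this

theorem kap_le {P : Pl K} (hK : FF K n) {d : Fin n → Derivation ℂ K K} (hl : ∀ i, Lg P (d i))
    {y : Fin n → K} (h0 : jac d y ≠ 0) : kap y P + 1 ≤ P.ord (jac d y) := by
  have := log_le₀ hK (lies_id P) (fun i => dr_of (d i)) (fun i c => (d i).map_algebraMap c) hl h0
  rwa [RingHom.id_apply, P.ord_t, Int.cast_one, one_mul] at this

theorem lg_bdd (hK : FF K n) (P : Pl K) (d : Derivation ℂ K K) :
    ∃ c : ℕ, Lg P fun x => P.t ^ c * d x := by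
  obtain ⟨t, D, a⟩ := exists_ad hK P
  obtain ⟨c, hc⟩ := exists_pow P fun j => d (t j)
  refine ⟨c + 1, fun x => ?_⟩
  have r : Rg P fun x => P.t ^ c * d x := fun x hx => by
    beta_reduce
    rw [expand (dr_of d) d.map_algebraMap a.fr x, Finset.mul_sum]
    exact sum_mem fun j _ => mul_assoc (P.t ^ c) _ _ ▸ mul_mem (hc j) (a.pre j x hx)
  have := r.lg_t ((dr_of d).smul _) x
  beta_reduce at this ⊢
  rwa [← mul_assoc, ← pow_succ'] at this

/-- adapted coordinates with any index set -/
theorem rg_idx {ι : Type} [Fintype ι] (hK : FF K n) (hc : Fintype.card ι + 1 = n) {P : Pl K}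
    {π : K} {u : ι → K} (h0 : P.ord π = 1) (h1 : ∀ i, u i ∈ P.ring)
    (h2 : AlgebraicIndependent ℂ fun i => P.rd (u i)) {d : K → K} (hd : De d) (k0 : d π ∈ P.ring)
    (k1 : ∀ i, d (u i) ∈ P.ring) (k2 : ∀ c, d (algebraMap ℂ K c) ∈ P.ring) : Rg P d := by
  subst hc
  let e := (Fintype.equivFin ι).symm
  exact Ada.rg (u := u ∘ e) ⟨h0, fun _ => h1 _, h2.comp e e.injective⟩ hK hd k0 (fun _ => k1 _) k2

theorem ext_ind {k E : Type} [Field k] [Field E] [Algebra k E] {ι : Type} [Fintype ι] {y : ι → E}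
    (hy : AlgebraicIndependent k y) (r : ℕ)
    (h : ((r + Fintype.card ι : ℕ) : Cardinal) ≤ Algebra.trdeg k E) :
    ∃ v : Fin r → E, AlgebraicIndependent k (Sum.elim v y) := by
  induction r with
  | zero =>
    refine ⟨Fin.elim0, (algebraicIndependent_equiv' (Equiv.emptySum _ _) ?_).2 hy⟩
    funext i
    rcases i with i | i
    exacts [i.elim0, rfl]
  | succ r ih =>
    obtain ⟨v, hv⟩ := ih (le_trans (by exact_mod_cast by omega) h)
    obtain ⟨a, ha⟩ : ∃ a : E, Transcendental (Algebra.adjoin k (range (Sum.elim v y))) a := by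
      by_contra hn
      have : Algebra.IsAlgebraic (Algebra.adjoin k (range (Sum.elim v y))) E :=
        ⟨fun a => by_contra fun e => hn ⟨a, e⟩⟩
      have := h.trans ((Algebra.IsAlgebraic.trdeg_le_cardinalMk k (range (Sum.elim v y))).trans
        Cardinal.mk_range_le)
      rw [Cardinal.mk_fintype, Fintype.card_sum, Fintype.card_fin, Nat.cast_le] at this
      omega
    let f : Fin (r + 1) ⊕ ι → Option (Fin r ⊕ ι) :=
      Sum.elim (Fin.cons none fun i => some (.inl i)) fun j => some (.inr j)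
    have := (AlgebraicIndependent.option_iff.2 ⟨hv, ha⟩).comp f (by
      rintro (i | i) (j | j)
      · refine Fin.cases ?_ (fun i => ?_) i <;> refine Fin.cases ?_ (fun j => ?_) j <;>
          simp [f]
      · refine Fin.cases ?_ (fun i => ?_) i <;> simp [f]
      · refine Fin.cases ?_ (fun j => ?_) j <;> simp [f]
      · simp [f])
    refine ⟨fun i => (f (.inl i)).elim a (Sum.elim v y), ?_⟩
    refine (congrArg (fun w => AlgebraicIndependent k w) (funext ?_)).mp this
    rintro (i | i) <;> rfl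

theorem ind_append {z : Fin r → K} {y : Fin m → K} :
    AlgebraicIndependent ℂ (Fin.append z y) ↔ AlgebraicIndependent ℂ (Sum.elim z y) :=
  (algebraicIndependent_equiv' finSumFinEquiv (by funext i; rcases i with i | i <;> simp)).symm

variable {φ : K →+* K'} {P : Pl K'} {Q : Pl K}

/-- `K'` is algebraic over the constants and the image of `φ` -/
def Alc (φ : K →+* K') : Prop := ∀ x : K', IsAlgebraic (Algebra.adjoin ℂ (range φ)) x

section rel

variable (hc : ∀ c, φ (algebraMap ℂ K c) ∈ range (algebraMap ℂ K')) {y : Fin m → K}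
  (hy : ∀ j, φ (y j) ∈ range (algebraMap ℂ K')) {t : Fin r → K}
  {D : Fin (r + m) → Derivation ℂ K K} (h : Fr (Fin.append t y) D)

include hc hy h

theorem expand_rel (d : Derivation ℂ K' K') (x : K) :
    d (φ x) = ∑ i, d (φ (t i)) * φ (D (Fin.castAdd m i) x) := by
  have k : ∀ x ∈ range (algebraMap ℂ K'), d x = 0 := by
    rintro _ ⟨c, rfl⟩
    exact d.map_algebraMap c
  have := expand ((dr_of d).comp φ) (fun c => k _ (hc c)) h x
  rw [Fin.sum_univ_add] at this
  simpa [k _ (hy _)] using this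

theorem ind_map (hK' : FF K' r) (ha : Alc φ) : AlgebraicIndependent ℂ fun i => φ (t i) := by
  obtain ⟨w, E, hE, -⟩ := exists_cn hK'
  rw [← jac_ne_iff hE]
  intro h0
  obtain ⟨c, c0, hc'⟩ := Matrix.exists_vecMul_eq_zero_iff.2 h0
  have k : ∀ x, (∑ i, c i • E i) x = 0 := fun x =>
    (dr_of _).kill (Derivation.map_algebraMap _) (s := range φ) (by
      rintro _ ⟨x, rfl⟩
      rw [expand_rel hc hy h]
      refine Finset.sum_eq_zero fun j _ => ?_
      rw [P285N.Brep.TbAux.sum_apply]
      exact mul_eq_zero_of_left (congrFun hc' j) _) (ha x)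
  refine c0 (funext fun j => ?_)
  simpa [P285N.Brep.TbAux.sum_apply, hE.dual] using k (w j)

theorem ext_rel {E : Fin r → Derivation ℂ K' K'} (hE : Fr (fun i => φ (t i)) E) (i : Fin r)
    (x : K) : E i (φ x) = φ (D (Fin.castAdd m i) x) := by
  rw [expand_rel hc hy h]
  simp [hE.dual]

theorem jac_rel {E : Fin r → Derivation ℂ K' K'} (hE : Fr (fun i => φ (t i)) E) (z : Fin r → K) :
    jac E (fun i => φ (z i)) = φ (jac D (Fin.append z y)) := by
  have e : jac D (Fin.append z y) = (Matrix.of fun i j => D (Fin.castAdd m i) (z j)).det := by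
    have := Matrix.det_fromBlocks_zero₁₂ (Matrix.of fun i j => D (Fin.castAdd m i) (z j))
      (Matrix.of fun i j => D (Fin.natAdd r i) (z j)) (1 : Matrix (Fin m) (Fin m) K)
    rw [Matrix.det_one, mul_one] at this
    rw [← this, jac, ← Matrix.det_submatrix_equiv_self finSumFinEquiv]
    congr 1
    ext i j
    have k := fun i j => h.dual i (Fin.natAdd r j)
    simp only [Fin.append_right] at k
    rcases i with i | i <;> rcases j with j | j <;>
      simp [k, Matrix.one_apply, Fin.ext_iff]
    omega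
  rw [e, RingHom.map_det, jac]
  congr 1
  ext i j
  exact ext_rel hc hy h hE i (z j)

end rel

/-- **K4**, equality -/
theorem rel_eq (hK : FF K (r + m)) (hK' : FF K' r)
    (hc : ∀ c, φ (algebraMap ℂ K c) ∈ range (algebraMap ℂ K')) (ha : Alc φ) (l : Lies φ P Q)
    (hs : Sp P (φ '' Q.ring)) {y : Fin m → K} (hy : ∀ j, φ (y j) ∈ range (algebraMap ℂ K'))
    {z : Fin r → K} (hz : AlgebraicIndependent ℂ (Fin.append z y)) :
    kap (fun i => φ (z i)) P + 1 = P.ord (φ Q.t) * (kap (Fin.append z y) Q + 1) := by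
  rcases r with _ | r
  · exact (no_pl hK' P).elim
  have cm : ∀ x ∈ range (algebraMap ℂ K'), x ∈ P.ring ∧ P.ord x = 0 := by
    rintro _ ⟨c, rfl⟩
    exact ⟨P.con c, P.ord_const c⟩
  have ym : ∀ j, y j ∈ Q.ring := fun j => (l _).2 (cm _ (hy j)).1
  have yi : AlgebraicIndependent ℂ fun j => Q.rd (y j) := by
    refine algebraicIndependent_iff.2 fun p hp => algebraicIndependent_iff.1
      ((ind_append.1 hz).comp _ Sum.inr_injective) p ?_
    have k : φ (MvPolynomial.aeval y p) ∈ range (algebraMap ℂ K') := by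
      clear hp
      induction p using MvPolynomial.induction_on with
      | C a => simpa using hc a
      | add p q h1 h2 => simpa using add_mem (S := Subring K') (s := RingHom.range _) h1 h2
      | mul_X p i h1 => simpa using mul_mem (S := Subring K') (s := RingHom.range _) h1 (hy i)
    rw [← rd_aeval ym, rd_eq_zero ((l _).2 (cm _ k).1), mx_iff, ← l.ord_pos_iff, (cm _ k).2] at hp
    exact hp.resolve_right (lt_irrefl _)
  obtain ⟨vb, hv⟩ := ext_ind yi r (by
    rw [trdeg_κ (n := r + m) (by rwa [Nat.add_right_comm] at hK) Q, Fintype.card_fin])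
  choose v v1 v2 using fun i => rd_surj (vb i)
  have um : ∀ i, Sum.elim v y i ∈ Q.ring := by rintro (i | i); exacts [v1 i, ym i]
  have ui : AlgebraicIndependent ℂ fun i => Q.rd (Sum.elim v y i) :=
    (congrArg (fun w => AlgebraicIndependent ℂ w) (funext (by
      rintro (i | i)
      exacts [(v2 i).symm, rfl]))).mp hv
  have ti : AlgebraicIndependent ℂ (Fin.append (Fin.cons Q.t v : Fin (r + 1) → K) y) := by
    let f : Fin (r + 1) ⊕ Fin m → Option (Fin r ⊕ Fin m) :=
      Sum.elim (Fin.cons none fun i => some (.inl i)) fun j => some (.inr j)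
    have := (AlgebraicIndependent.option_iff.2 ⟨ind_of_rd um ui, trans_of_mx um ui Q.t_ne
      (mx_iff.2 (.inr (by rw [Q.ord_t]; omega)))⟩).comp f (by
      rintro (i | i) (j | j)
      · refine Fin.cases ?_ (fun i => ?_) i <;> refine Fin.cases ?_ (fun j => ?_) j <;>
          simp [f]
      · refine Fin.cases ?_ (fun i => ?_) i <;> simp [f]
      · refine Fin.cases ?_ (fun j => ?_) j <;> simp [f]
      · simp [f])
    refine ind_append.2 ((congrArg (fun w => AlgebraicIndependent ℂ w) (funext ?_)).mp this)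
    rintro (i | i)
    · refine Fin.cases ?_ (fun i => ?_) i <;> rfl
    · rfl
  obtain ⟨D, hD⟩ := fr_of hK ti
  have tm : ∀ j, Fin.append (Fin.cons Q.t v : Fin (r + 1) → K) y j ∈ Q.ring := fun j => by
    refine Fin.addCases (fun j => ?_) (fun j => ?_) j
    · rw [Fin.append_left]
      exact Fin.cases (t_mem Q) v1 j
    · rw [Fin.append_right]
      exact ym j
  have dm : ∀ i j, D i (Fin.append (Fin.cons Q.t v : Fin (r + 1) → K) y j) ∈ Q.ring :=
    fun i j => by
      rw [hD.dual]
      split_ifs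
      exacts [one_mem _, zero_mem _]
  have a : Ad Q _ D := ⟨hD, tm, fun i => rg_idx hK (by simp; omega) Q.ord_t um ui (dr_of (D i))
    (by simpa using dm i (Fin.castAdd m 0)) (by
      rintro (j | j)
      · simpa using dm i (Fin.castAdd m j.succ)
      · simpa using dm i (Fin.natAdd _ j))
    fun c => by rw [Derivation.map_algebraMap]; exact zero_mem _⟩
  have i' := ind_map hc hy hD hK' ha
  obtain ⟨E, hE⟩ := fr_of hK' i'
  have ex := ext_rel hc hy hD hE
  have t0 : φ Q.t ≠ 0 := (map_ne_zero φ).2 Q.t_ne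
  let c : Fin (r + 1) → K' := Fin.cons (φ Q.t) fun _ => 1
  have cm' : ∀ i, c i ∈ P.ring := fun i => Fin.cases ((l _).1 (t_mem Q)) (fun _ => one_mem _) i
  have lg : ∀ i, Lg P (c i • E i : Derivation ℂ K' K') := fun i => by
    obtain ⟨k, hk⟩ := lg_bdd hK' P (c i • E i)
    refine lg_of (dr_of _) hs ?_ (fun c => by rw [Derivation.map_algebraMap]; exact zero_mem _)
      l.e_pos.ne' ?_ k hk
    · rintro _ ⟨x, hx, rfl⟩
      rw [Derivation.smul_apply, ex]
      exact mul_mem (cm' i) ((l _).1 (a.pre _ x hx))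
    · have := hE.dual i 0
      rw [Fin.cons_zero] at this
      rw [Derivation.smul_apply, this]
      refine Fin.cases ?_ (fun i => ?_) i
      · simp [c, t0, one_mem]
      · simp [zero_mem]
  have j1 : jac (fun i => c i • E i) (fun i => φ ((Fin.cons Q.t v : Fin (r + 1) → K) i)) =
      φ Q.t := by
    have := Matrix.det_mul_column c (Matrix.of fun i j => E i
      (φ ((Fin.cons Q.t v : Fin (r + 1) → K) j)))
    refine Eq.trans this ?_
    rw [show Matrix.det _ = _ from jac_self hE, Fin.prod_univ_succ]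
    simp [c]
  have k1 := kap_le hK' lg (j1 ▸ t0)
  have k2 := sum_le_kap hK' i' P
  have v0 : ∀ i, Q.ord (v i) = 0 := fun i => by
    have : ¬ Mx Q (v i) := by
      rw [← rd_eq_zero (v1 i)]
      exact ui.ne_zero (.inl i)
    rw [mx_iff, not_or] at this
    have k := Pl.ord_nonneg_of_mem _ (v1 i)
    omega
  rw [j1] at k1
  rw [Fin.sum_univ_succ] at k2
  simp only [Fin.cons_zero, Fin.cons_succ, l.ord (v _), v0, mul_zero, Int.cast_zero,
    Finset.sum_const_zero, add_zero] at k2
  have z0 := (jac_ne_iff hD _).2 hz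
  have jr := jac_rel hc hy hD hE z
  rw [kap_chg hE (jr ▸ (map_ne_zero φ).2 z0), Pi.add_apply, jr, dv_apply, l.ord (jac _ _),
    kap_eq a]
  push_cast
  linarith

end Vale.Agent.P287D.Cb
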