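import Vale.Agent.P287D.Cb.Row
import Vale.Agent.P287D.Pb.Gd

/-!
# P287D, block CAN: moving subvarieties
-/

open Set
open Vale.Agent.P285N.Brep (jac Fr)
open Vale.Agent.P297Z

noncomputable section

namespace Vale.Agent.P287D.Cb

variable {K K' : Type} [Field K] [Algebra ℂ K] [Field K'] [Algebra ℂ K'] {n m l : ℕ}

theorem Dr.kill' {k A B : Type} [Field k] [Field A] [Field B] [Algebra k A] [CharZero A]
    {φ : A →+* B} {d : A → B} (h : Dr φ d) (hc : ∀ c, d (algebraMap k A c) = 0) {s : Set A}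
    (hs : ∀ x ∈ s, d x = 0) {c : A} (ha : IsAlgebraic (Algebra.adjoin k s) c) : d c = 0 := by
  have le : ∀ x ∈ Algebra.adjoin k s, x ∈ h.ker := fun x hx => by
    induction hx using Algebra.adjoin_induction with
    | mem a ha => exact hs a ha
    | algebraMap a => exact hc a
    | add a b _ _ ha hb => exact add_mem ha hb
    | mul a b _ _ ha hb => exact mul_mem ha hb
  obtain ⟨p, p0, hp⟩ := ha
  let ι : Algebra.adjoin k s →+* h.ker :=
    ((Algebra.adjoin k s).val : _ →+* A).codRestrict h.ker fun x => le x x.2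
  refine h.alg ⟨p.map ι, (Polynomial.map_ne_zero_iff fun a b e => ?_).2 p0, ?_⟩
  · exact Subtype.ext (congrArg Subtype.val e :)
  · rw [Polynomial.aeval_def, Polynomial.eval₂_map, ← hp, Polynomial.aeval_def]
    rfl

theorem Dr.sub {A B : Type} [Field A] [Field B] {φ : A →+* B} {d e : A → B} (h : Dr φ d)
    (k : Dr φ e) : Dr φ fun x => d x - e x :=
  ⟨fun x y => by rw [h.add, k.add]; ring, fun x y => by rw [h.mul, k.mul]; ring⟩

theorem de_of {k A : Type} [CommRing k] [Field A] [Algebra k A] (D : Derivation k A A) : De D :=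
  ⟨fun x y => map_add D x y, fun x y => D.leibniz x y⟩

/-- the constants are preserved -/
def Pc (d : K → K) : Prop := ∀ c, d (algebraMap ℂ K c) ∈ range (algebraMap ℂ K)

/-- every derivation which preserves the constants is logarithmic up to a derivation over the
constants -/
theorem lift_lg (hK : FF K n) (P : Pl K) {d : K → K} (h : De d) (hc : Pc d) :
    ∃ E : Derivation ℂ K K, Lg P fun x => d x - E x := by
  rcases n with _ | n
  · exact (no_pl hK P).elim
  obtain ⟨u, a⟩ := exists_ada hK P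
  obtain ⟨D, hD⟩ := a.ad hK
  have k : ∀ j, d ((Fin.cons P.t u : Fin (n + 1) → K) j) -
      (∑ i, d ((Fin.cons P.t u : Fin (n + 1) → K) i) • D i)
        ((Fin.cons P.t u : Fin (n + 1) → K) j) = 0 := fun j => by
    simp [P285N.Brep.TbAux.sum_apply, hD.fr.dual]
  generalize ∑ i, d ((Fin.cons P.t u : Fin (n + 1) → K) i) • D i = E at k
  refine ⟨E, a.lg hK (h.sub (dr_of E)) ?_ (fun i => ?_) fun c => ?_⟩
  · rw [show d P.t - E P.t = 0 from k 0, zero_div]
    exact zero_mem _
  · rw [show d (u i) - E (u i) = 0 from k i.succ]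
    exact zero_mem _
  · obtain ⟨c', e⟩ := hc c
    rw [Derivation.map_algebraMap, sub_zero, ← e]
    exact P.con c'

/-- the determinant of a list of derivations -/
def dl (d : Fin n → K' → K') (w : Fin n → K') : K' := (Matrix.of fun i j => d i (w j)).det

theorem dl_lift {z : Fin m → K'} {D : Fin m → Derivation ℂ K' K'} (h : Fr z D)
    (E : Fin m → Derivation ℂ K' K') (δ : Fin l → K' → K') (F : Fin l → Derivation ℂ K' K')
    (w : Fin (m + l) → K') :
    dl (Fin.append (fun i x => E i x) fun j x => δ j x - F j x) w =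
      jac E z * dl (Fin.append (fun i x => D i x) δ) w := by
  have e : jac E z = (Matrix.fromBlocks (Matrix.of fun i j => E i (z j)) 0
      (Matrix.of fun i j => -F i (z j)) (1 : Matrix (Fin l) (Fin l) K')).det := by
    rw [Matrix.det_fromBlocks_zero₁₂, Matrix.det_one, mul_one, jac]
  rw [e, dl, dl, ← Matrix.det_submatrix_equiv_self finSumFinEquiv,
    ← Matrix.det_submatrix_equiv_self finSumFinEquiv (Matrix.of _), ← Matrix.det_mul]
  congr 1
  ext i j
  rw [Matrix.mul_apply, Fintype.sum_sum_type]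
  rcases i with i | i
  · simpa using expand (dr_of (E i)) (E i).map_algebraMap h (w (finSumFinEquiv j))
  · have := expand (dr_of (F i)) (F i).map_algebraMap h (w (finSumFinEquiv j))
    simp only [RingHom.id_apply] at this
    simp [Matrix.one_apply, this, sub_eq_neg_add]

variable {φ : K →+* K'} {P : Pl K'} {Q : Pl K}

section mov

variable (hK' : FF K' m) {z : Fin m → K'} {D : Fin m → Derivation ℂ K' K'} (h : Fr z D)
  {δ : Fin l → K' → K'} (h1 : ∀ j, De (δ j)) (h2 : ∀ j, Pc (δ j)) {y : Fin (m + l) → K}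
  (h0 : dl (Fin.append (fun i x => D i x) δ) (fun j => φ (y j)) ≠ 0)

include hK' h h1 h2 h0

/-- the residue of a form along a moving subvariety, logarithmic orders -/
theorem mov_log (hK : FF K (m + l)) (hc : Cst φ) (h3 : ∀ j c, δ j (φ (algebraMap ℂ K c)) = 0)
    (li : Lies φ P Q) : P.ord (φ Q.t) * (kap y Q + 1) ≤
      kap z P + 1 + P.ord (dl (Fin.append (fun i x => D i x) δ) fun j => φ (y j)) := by
  obtain ⟨L, hL⟩ := exists_lf hK' P
  choose F hF using fun j => lift_lg hK' P (h1 j) (h2 j)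
  have zi := (jac_ne_iff h z).1 (by rw [jac_self h]; exact one_ne_zero)
  have e := dl_lift h L δ F fun j => φ (y j)
  have k : ∀ (E : Derivation ℂ K' K') c, E (φ (algebraMap ℂ K c)) = 0 := fun E c => by
    obtain ⟨c', e⟩ := hc c
    rw [← e, E.map_algebraMap]
  have := log_le₀ hK li (d := Fin.append (fun i x => L i x) fun j x => δ j x - F j x)
    (fun i => by
      refine Fin.addCases (fun i => ?_) (fun i => ?_) i
      · rw [Fin.append_left]; exact dr_of _
      · rw [Fin.append_right]; exact (h1 i).sub (dr_of _))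
    (fun i c => by
      refine Fin.addCases (fun i => ?_) (fun i => ?_) i
      · rw [Fin.append_left]; exact k _ c
      · rw [Fin.append_right, h3, k, sub_zero])
    (fun i => by
      refine Fin.addCases (fun i => ?_) (fun i => ?_) i
      · rw [Fin.append_left]; exact hL.lg i
      · rw [Fin.append_right]; exact hF i) (y := y) (e ▸ mul_ne_zero (hL.ne z zi) h0 :)
  rw [hL.eq z zi, ← Int.cast_add, ← Pl.ord_mul _ (hL.ne z zi) h0, ← e]
  exact this

omit [Algebra ℂ K] in
/-- the residue of a form along a moving subvariety, places with a moving centre -/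
theorem mov_trv (t : Trv φ P) :
    0 ≤ kap z P + P.ord (dl (Fin.append (fun i x => D i x) δ) fun j => φ (y j)) := by
  obtain ⟨s, E, a⟩ := exists_ad hK' P
  choose F hF using fun j => lift_lg hK' P (h1 j) (h2 j)
  have e := dl_lift h E δ F fun j => φ (y j)
  rw [kap_eq a, ← Int.cast_add, ← Pl.ord_mul _ (jac_ne h a.fr) h0, ← e]
  refine Int.cast_nonneg (Pl.ord_nonneg_of_mem _ (det_mem _ fun i j => ?_))
  refine Fin.addCases (fun i => ?_) (fun i => ?_) i
  · rw [Matrix.of_apply, Fin.append_left]; exact a.pre i _ (t _)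
  · rw [Matrix.of_apply, Fin.append_right]; exact (hF i).rg ((h1 i).sub (dr_of _)) _ (t _)

end mov

omit [Algebra ℂ K] in
theorem alc_of_gen (h : Subfield.closure (range φ ∪ range (algebraMap ℂ K')) = ⊤) : Alc φ := by
  intro x
  obtain ⟨a, ha, b, hb, rfl⟩ := Subfield.mem_closure_iff.1 (h ▸ Subfield.mem_top x)
  have le : Subring.closure (range φ ∪ range (algebraMap ℂ K')) ≤
      (Algebra.adjoin ℂ (range φ)).toSubring := Subring.closure_le.2 (by
    rintro _ (h | ⟨c, rfl⟩)
    exacts [Algebra.subset_adjoin h, Subalgebra.algebraMap_mem _ c])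
  rw [div_eq_mul_inv]
  exact (isAlgebraic_algebraMap (⟨a, le ha⟩ : Algebra.adjoin ℂ (range φ))).mul
    (isAlgebraic_algebraMap (⟨b, le hb⟩ : Algebra.adjoin ℂ (range φ))).inv

/-- the derivations which preserve the constants separate the differentials of `K` -/
theorem sep (hK' : FF K' m) (hc : Cst φ) {y : Fin n → K} (hy : AlgebraicIndependent ℂ y) :
    Submodule.span K' {v : Fin n → K' | ∃ d, De d ∧ Pc d ∧ (∀ c, d (φ (algebraMap ℂ K c)) = 0) ∧
      v = fun j => d (φ (y j))} = ⊤ := by
  classical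
  have : CharZero K' := charZero_of_injective_algebraMap (algebraMap ℂ K').injective
  obtain ⟨σ, hσ⟩ := hc.exists_cst
  let k := σ.fieldRange
  obtain ⟨ι, x, hx⟩ := exists_isTranscendenceBasis' k ℂ
  obtain ⟨z, hz, -⟩ := id hK'
  have hT := hx.sumElim_comp (hK'.basis hz)
  generalize hTT : Sum.elim z (algebraMap ℂ K' ∘ x) = T at hT
  choose d hd using fun τ => P297.H927.exists_derivation_of_basis hT
    fun τ' => if τ = τ' then (1 : K') else 0
  have pc : ∀ τ, Pc (d τ) := fun τ c => by
    obtain ⟨e, he⟩ := P297.H927.exists_derivation_of_basis hx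
      fun b => if τ = .inr b then (1 : ℂ) else 0
    have a : Dr (algebraMap ℂ K') fun c => algebraMap ℂ K' (e c) :=
      ⟨fun a b => by rw [map_add, map_add], fun a b => by simp⟩
    refine ⟨e c, (sub_eq_zero.1 ((((de_of (d τ)).comp (algebraMap ℂ K')).sub a).kill' (k := k)
      (fun c => ?_) (s := range x) ?_ (hx.isAlgebraic.isAlgebraic c))).symm⟩
    · rw [← IsScalarTower.algebraMap_apply, Derivation.map_algebraMap, Derivation.map_algebraMap,
        map_zero, sub_zero]
    · rintro _ ⟨b, rfl⟩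
      have := hd τ (.inr b)
      rw [← hTT] at this
      rw [he, show d τ (algebraMap ℂ K' (x b)) = _ from this]
      split_ifs <;> simp
  have sp : Submodule.span K' (range fun τ => KaehlerDifferential.D k K' (T τ)) = ⊤ := by
    by_contra hn
    obtain ⟨f, f0, hf⟩ := Submodule.exists_le_ker_of_lt_top _ (lt_top_iff_ne_top.2 hn)
    refine f0 (LinearMap.ext_on (KaehlerDifferential.span_range_derivation k K') ?_)
    rintro _ ⟨a, rfl⟩
    refine (de_of (f.compDer (KaehlerDifferential.D k K'))).kill' (k := k)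
      (Derivation.map_algebraMap _) (s := range T) ?_ (hT.isAlgebraic.isAlgebraic a)
    rintro _ ⟨τ, rfl⟩
    exact hf (Submodule.subset_span ⟨τ, rfl⟩)
  by_contra hn
  obtain ⟨f, f0, hf⟩ := Submodule.exists_le_ker_of_lt_top _ (lt_top_iff_ne_top.2 hn)
  let c : Fin n → K' := fun i => f fun j => if i = j then 1 else 0
  have ev : ∀ e : Derivation k K' K', e.liftKaehlerDifferential
      (∑ i, c i • KaehlerDifferential.D k K' (φ (y i))) = f fun j => e (φ (y j)) := fun e => by
    rw [LinearMap.pi_apply_eq_sum_univ f, map_sum]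
    simp [c, mul_comm]
  obtain ⟨a, ha⟩ := Finsupp.mem_span_range_iff_exists_finsupp.1
    (sp ▸ Submodule.mem_top (x := ∑ i, c i • KaehlerDifferential.D k K' (φ (y i))))
  have a0 : a = 0 := Finsupp.ext fun τ => by
    have := ev (d τ)
    rw [← ha, map_finsuppSum, hf (Submodule.subset_span ⟨d τ, de_of _, pc τ, fun c => hσ c ▸
      (d τ).map_algebraMap (⟨σ c, c, rfl⟩ : k), rfl⟩)] at this
    simpa [hd, Finsupp.sum, Finsupp.mem_support_iff] using this
  have yi : AlgebraicIndependent k (φ ∘ y) := hy.ringHom_of_comp_eq σ.rangeRestrictField φ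
    σ.rangeRestrictField_bijective.2 φ.injective (RingHom.ext hσ)
  obtain ⟨t, ht, hb⟩ := exists_isTranscendenceBasis_superset yi.to_subtype_range
  refine f0 (LinearMap.pi_ext' fun i => LinearMap.ext_ring ?_)
  obtain ⟨e, he⟩ := P297.H927.exists_derivation_of_basis hb
    fun s => if φ (y i) = s then (1 : K') else 0
  have := ev e
  rw [← ha, a0, Finsupp.sum_zero_index, map_zero] at this
  rw [LinearMap.zero_comp, LinearMap.zero_apply, this]
  refine congrArg f (funext fun j => ?_)
  have k1 := he ⟨φ (y j), ht ⟨j, rfl⟩⟩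
  have k2 : φ (y i) = φ (y j) ↔ j = i := ⟨fun e => (yi.injective e).symm, fun e => e ▸ rfl⟩
  simp only [k2] at k1
  simp [k1, Pi.single_apply]

theorem exists_normal (hK : FF K n) (hK' : FF K' m) (hc : Cst φ) (ha : Alc φ) {z : Fin m → K'}
    {D : Fin m → Derivation ℂ K' K'} (h : Fr z D) {y : Fin n → K} (hy : AlgebraicIndependent ℂ y)
    (l : ℕ) (hl : l = 0 ∨ m + l ≤ n) : ∃ δ : Fin l → K' → K', (∀ j, De (δ j) ∧ Pc (δ j) ∧
      ∀ c, δ j (φ (algebraMap ℂ K c)) = 0) ∧
      LinearIndependent K' fun i j => Fin.append (fun i x => D i x) δ i (φ (y j)) := by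
  induction l with
  | zero =>
    refine ⟨Fin.elim0, fun j => j.elim0, Fintype.linearIndependent_iff.2 fun c hc' j => ?_⟩
    obtain ⟨E, hE⟩ := fr_of hK hy
    rw [show Fin.append (fun i x => D i x) Fin.elim0 = fun i x => D i x from
      Fin.append_elim0 _] at hc'
    have k : ∀ x, (∑ i : Fin m, c i • D i) x = 0 := fun x =>
      (dr_of _).kill (Derivation.map_algebraMap _) (s := range φ) (by
        rintro _ ⟨x, rfl⟩
        refine (expand ((dr_of _).comp φ) (fun c => ?_) hE x).trans
          (Finset.sum_eq_zero fun j _ => ?_)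
        · obtain ⟨c', e⟩ := hc c
          rw [← e, Derivation.map_algebraMap]
        · rw [P285N.Brep.TbAux.sum_apply]
          refine mul_eq_zero_of_left ?_ _
          simpa using congrFun hc' j) (ha x)
    simpa [P285N.Brep.TbAux.sum_apply, h.dual] using k (z j)
  | succ l ih =>
    obtain ⟨δ, h1, h2⟩ := ih (by omega)
    obtain ⟨d, k1, k2⟩ : ∃ d, (De d ∧ Pc d ∧ ∀ c, d (φ (algebraMap ℂ K c)) = 0) ∧
        (fun j => d (φ (y j))) ∉ Submodule.span K'
          (range fun i j => Fin.append (fun i x => D i x) δ i (φ (y j))) := by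
      by_contra hn
      push Not at hn
      have := finrank_le_of_span_eq_top (eq_top_iff.2 ((sep hK' hc hy).ge.trans
        (Submodule.span_le.2 (by rintro _ ⟨d, a, b, c, rfl⟩; exact hn d ⟨a, b, c⟩))))
      simp at this
      omega
    refine ⟨Fin.snoc δ d, fun j => Fin.lastCases (by rwa [Fin.snoc_last])
      (fun j => by rw [Fin.snoc_castSucc]; exact h1 j) j, ?_⟩
    refine (congrArg (fun w => LinearIndependent K' w) (funext fun i => ?_)).mp
      (linearIndependent_finSnoc.2 ⟨h2, k2⟩)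
    rw [Fin.append_snoc]
    refine Fin.lastCases ?_ (fun i => ?_) i
    · rw [Fin.snoc_last, Fin.snoc_last]
    · rw [Fin.snoc_castSucc, Fin.snoc_castSucc]

/-- the canonical class of a moving subvariety, logarithmic form -/
theorem mov (hK : FF K n) (hK' : FF K' m) (hc : Cst φ) (ha : Alc φ) : ∃ f : K', f ≠ 0 ∧
    (∀ P Q, Lies φ P Q → P.ord (φ Q.t) * (cn K n Q + 1) ≤ (cn K' m + dv f) P + 1) ∧
    ∀ P, Trv φ P → 0 ≤ (cn K' m + dv f) P := by
  obtain ⟨y, E, hE, e⟩ := exists_cn hK
  obtain ⟨z, D, hD, e'⟩ := exists_cn hK'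
  have hy := (jac_ne_iff hE y).1 (by rw [jac_self hE]; exact one_ne_zero)
  obtain ⟨δ, -, h⟩ := exists_normal hK hK' hc ha hD hy 0 (.inl rfl)
  obtain ⟨l, rfl⟩ := Nat.exists_eq_add_of_le (show m ≤ n by simpa using h.fintype_card_le_finrank)
  obtain ⟨δ, h1, h⟩ := exists_normal hK hK' hc ha hD hy l (.inr le_rfl)
  have h0 : dl (Fin.append (fun i x => D i x) δ) (fun j => φ (y j)) ≠ 0 :=
    ((Matrix.isUnit_iff_isUnit_det _).1 (Matrix.linearIndependent_rows_iff_isUnit.1 h)).ne_zero
  refine ⟨_, h0, fun P Q li => ?_, fun P t => ?_⟩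
  · have := mov_log hK' hD (fun j => (h1 j).1) (fun j => (h1 j).2.1) h0 hK hc
      (fun j => (h1 j).2.2) li
    rw [e, e', Pi.add_apply, dv_apply]
    linarith
  · rw [e', Pi.add_apply, dv_apply]
    exact mov_trv hK' hD (fun j => (h1 j).1) (fun j => (h1 j).2.1) h0 t

/-- **GD.mov** -/
theorem gd_mov (n m : ℕ) : ForH fun K K' _ _ _ _ φ => FF K n → FF K' m → Cst φ →
    Subfield.closure (range φ ∪ range (algebraMap ℂ K')) = ⊤ →
    ∃ f : K', f ≠ 0 ∧ pb φ (cn K n) ≤ cn K' m + dv f := by
  intro K K' _ _ _ _ φ hK hK' hc hg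
  obtain ⟨f, f0, h1, h2⟩ := mov hK hK' hc (alc_of_gen hg)
  refine ⟨f, f0, fun P => ?_⟩
  rcases hc.ok hK hK' P with t | ⟨Q, l⟩
  · exact t.pb _ ▸ h2 P t
  · have := h1 P Q l
    have e : (1 : ℝ) ≤ P.ord (φ Q.t) := by exact_mod_cast l.e_pos
    rw [l.pb]
    linarith

/-- **GD** -/
theorem gd : GD := gd_of gd_mov

end Vale.Agent.P287D.Cb
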